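import Vale.Agent.P133.Scale
import Vale.Agent.P095.W.PiecesF
import Vale.Agent.P095.W.Seq

/-!
P133: without characters on the central sequence algebra, weak pure infiniteness gives pure and
strong pure infiniteness.
-/

namespace Vale.Agent.P133

open Filter Vale.Agent.P101 Vale.Agent.P095 Vale.Agent.P095.Rel Vale.Agent.P095.W
open scoped Topology BoundedContinuousFunction

noncomputable local instance cseqGlue {A : Type} [NonUnitalCStarAlgebra A] (w : Ultrafilter ℕ) :
    CStarAlgebra (centralSeq (w : Filter ℕ) (Unitization ℂ A)) :=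
  StarSubalgebra.cstarAlgebra _ (h_closed := isClosed_centralSeq w)

variable {A : Type} [NonUnitalCStarAlgebra A] {w : Ultrafilter ℕ}

theorem tendsto_middle (z : A) {a b c : CSeq A w} (h : cls (star a * b) = cls c) :
    Tendsto (fun k => star (a.1 k) * (star (z : Unitization ℂ A) * z) * b.1 k
      - star (z : Unitization ℂ A) * c.1 k * z) (w : Filter ℕ) (𝓝 0) := by
  have h2 := toSeq_mul_of_cls w h z
  have e : star (toSeq w a) * (iota w (star (z : Unitization ℂ A)) * iota w (z : Unitization ℂ A))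
      * toSeq w b
      = iota w (star (z : Unitization ℂ A)) * (toSeq w c * iota w (z : Unitization ℂ A)) := by
    rw [← h2, map_mul (toSeq w), map_star (toSeq w)]
    have c1 := toSeq_comm w (star a) (star (z : Unitization ℂ A))
    rw [map_star (toSeq w)] at c1
    simp only [mul_assoc]
    rw [← mul_assoc (star (toSeq w a)), c1.eq, ← (toSeq_comm w b (z : Unitization ℂ A)).eq]
    simp only [mul_assoc]
  simp only [toSeq_apply, iota_apply, ← map_star (sq w), ← map_mul (sq w), sq_eq] at e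
  refine e.congr fun k => ?_
  simp [mul_assoc]

theorem tendsto_orth (M : A) {a b : CSeq A w} (h : cls (star a * b) = cls (0 : CSeq A w)) :
    Tendsto (fun k => star (a.1 k) * (M : Unitization ℂ A) * b.1 k) (w : Filter ℕ) (𝓝 0) := by
  have h2 := toSeq_mul_of_cls w h M
  rw [map_mul (toSeq w), map_star (toSeq w), map_zero, zero_mul] at h2
  have e : star (toSeq w a) * iota w (M : Unitization ℂ A) * toSeq w b = 0 := by
    rw [mul_assoc, ← (toSeq_comm w b (M : Unitization ℂ A)).eq, ← mul_assoc]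
    exact h2
  simp only [toSeq_apply, iota_apply, ← map_star (sq w), ← map_mul (sq w)] at e
  rw [← map_zero (sq w), sq_eq] at e
  refine e.congr fun k => ?_
  simp

theorem tendsto_cover (z : A) {R : ℕ} {c : CSeq A w} {v : Fin R → CSeq A w}
    (h : cls (∑ b, star (v b) * c * v b) = cls (1 : CSeq A w)) :
    Tendsto (fun k => (∑ b, star ((v b).1 k) * (star (z : Unitization ℂ A) * c.1 k * z) * (v b).1 k)
      - star (z : Unitization ℂ A) * z) (w : Filter ℕ) (𝓝 0) := by
  have h2 := toSeq_mul_of_cls w h z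
  rw [map_one, one_mul] at h2
  have e : ∑ b, star (toSeq w (v b)) * (iota w (star (z : Unitization ℂ A)) * toSeq w c
      * iota w (z : Unitization ℂ A)) * toSeq w (v b)
      = iota w (star (z : Unitization ℂ A)) * iota w (z : Unitization ℂ A) := by
    nth_rewrite 2 [← h2]
    rw [map_sum (toSeq w), Finset.sum_mul, Finset.mul_sum]
    refine Finset.sum_congr rfl fun b _ => ?_
    have c1 := toSeq_comm w (star (v b)) (star (z : Unitization ℂ A))
    rw [map_star (toSeq w)] at c1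
    rw [map_mul (toSeq w), map_mul (toSeq w), map_star (toSeq w)]
    simp only [mul_assoc]
    rw [← mul_assoc (star (toSeq w (v b))), c1.eq, ← (toSeq_comm w (v b) (z : Unitization ℂ A)).eq]
    simp only [mul_assoc]
  simp only [toSeq_apply, iota_apply, ← map_star (sq w), ← map_mul (sq w), ← map_sum (sq w),
    sq_eq] at e
  refine e.congr fun k => ?_
  simp

theorem norm_double_sum_le {n : ℕ} {B : Type*} [NormedRing B] (f : Fin n → Fin n → B) {r : ℝ}
    (h : ∀ a b, ‖f a b‖ ≤ r) : ‖∑ a, ∑ b, f a b‖ ≤ (n : ℝ) * n * r :=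
  (norm_sum_le_of_le _ fun a _ => norm_sum_le_of_le _ fun b _ => h a b).trans
    (le_of_eq (by simp [mul_assoc]))

/-- At one index: a positive element carried by the translates. -/
theorem exists_carry {n R : ℕ} {z : A} {d : Unitization ℂ A} {u : Fin n → Unitization ℂ A}
    {v : Fin R → Unitization ℂ A} {C K Vb ε ε₁ ε₂ : ℝ} (hC : 0 ≤ C) (hK : 0 < K)
    (hε₁0 : 0 ≤ ε₁) (hdz : ‖d‖ * ‖z‖ * (‖d‖ * ‖z‖) ≤ K) (hv : ∑ b, ‖v b‖ ≤ Vb)
    (he1 : K * (Vb * Vb) * ε₁ ≤ ε / 3) (he2 : (n : ℝ) * n * (C * Vb * ε₂ * (C * Vb)) ≤ ε / 3)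
    (hb : ∀ H : A, IsPositive H → ‖H‖ ≤ 1 → ∃ x : Fin n → Fin R → A, (∀ a p, ‖x a p‖ ≤ C) ∧
      ∀ p q, ‖((∑ a, star (x a p) * H * x a q : A) : Unitization ℂ A)
        - (if p = q then (H : Unitization ℂ A) else 0)‖ ≤ ε₁)
    (h1 : ∀ a a', ‖star (u a) * (star (z : Unitization ℂ A) * z) * u a'
      - (if a = a' then star (z : Unitization ℂ A) * (star d * d) * z else 0)‖ ≤ ε₂)
    (h2 : ‖(∑ b, star (v b) * (star (z : Unitization ℂ A) * (star d * d) * z) * v b)
      - star (z : Unitization ℂ A) * z‖ ≤ ε / 3) :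
    ∃ y : Fin n → Unitization ℂ A, (∀ a, InA (y a) ∧ ‖y a‖ ≤ C * Vb) ∧
      ‖star (∑ a, u a * y a) * (star (z : Unitization ℂ A) * z) * (∑ a, u a * y a)
        - star (z : Unitization ℂ A) * z‖ ≤ ε := by
  classical
  have hVb : 0 ≤ Vb := (Finset.sum_nonneg fun b _ => norm_nonneg _).trans hv
  obtain ⟨dz, hdz'⟩ := ((inA_inr z).mul_left d).exists_inr
  set H : A := ((K⁻¹ : ℝ) : ℂ) • (star dz * dz) with hH
  have hHpos : IsPositive H := by
    refine ⟨((Real.sqrt K⁻¹ : ℝ) : ℂ) • dz, ?_⟩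
    rw [hH, star_smul, smul_mul_smul_comm, Complex.star_def, Complex.conj_ofReal,
      ← Complex.ofReal_mul, Real.mul_self_sqrt (by positivity)]
  have hdzn : ‖dz‖ ≤ ‖d‖ * ‖z‖ := by
    rw [← Unitization.norm_inr (𝕜 := ℂ) dz, hdz']
    exact (norm_mul_le _ _).trans (le_of_eq (by rw [Unitization.norm_inr]))
  have hHn : ‖H‖ ≤ 1 := by
    rw [hH, norm_smul, Complex.norm_real, Real.norm_of_nonneg (by positivity), inv_mul_le_one₀ hK,
      CStarRing.norm_star_mul_self]
    exact (mul_self_le_mul_self (norm_nonneg _) hdzn).trans hdz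
  obtain ⟨x, hx, hxe⟩ := hb H hHpos hHn
  set Hb : Unitization ℂ A := star (z : Unitization ℂ A) * (star d * d) * z with hHb
  have hKb : Hb = ((K : ℝ) : ℂ) • (H : Unitization ℂ A) := by
    rw [hH, Unitization.inr_smul, Unitization.inr_mul, Unitization.inr_star, hdz', smul_smul,
      ← Complex.ofReal_mul, mul_inv_cancel₀ hK.ne', Complex.ofReal_one, one_smul, hHb]
    simp [mul_assoc]
  let y : Fin n → Unitization ℂ A := fun a => ∑ b, (x a b : Unitization ℂ A) * v b
  have hyn : ∀ a, ‖y a‖ ≤ C * Vb := fun a =>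
    (norm_sum_le_of_le _ fun b _ => (norm_mul_le _ _).trans (mul_le_mul_of_nonneg_right
      ((Unitization.norm_inr (𝕜 := ℂ) _).trans_le (hx a b)) (norm_nonneg _))).trans
      (by rw [← Finset.mul_sum]; exact mul_le_mul_of_nonneg_left hv hC)
  refine ⟨y, fun a => ⟨InA.sum _ _ fun b _ => (inA_inr _).mul_right _, hyn a⟩, ?_⟩
  have eA : ‖star (∑ a, u a * y a) * (star (z : Unitization ℂ A) * z) * (∑ a, u a * y a)
      - ∑ a, star (y a) * Hb * y a‖ ≤ ε / 3 := by
    have e : star (∑ a, u a * y a) * (star (z : Unitization ℂ A) * z) * (∑ a, u a * y a)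
        - ∑ a, star (y a) * Hb * y a
        = ∑ a, ∑ a', star (y a) * (star (u a) * (star (z : Unitization ℂ A) * z) * u a'
            - (if a = a' then Hb else 0)) * y a' := by
      simp only [mul_sub, sub_mul, Finset.sum_sub_distrib, mul_ite, ite_mul, mul_zero, zero_mul,
        Finset.sum_ite_eq, Finset.mem_univ, if_true]
      congr 1
      simp only [star_sum, star_mul, Finset.sum_mul, Finset.mul_sum, mul_assoc]
      exact Finset.sum_comm
    rw [e]
    exact (norm_double_sum_le _ fun a a' => (norm_mul_le _ _).trans (mul_le_mul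
      ((norm_mul_le _ _).trans (mul_le_mul ((norm_star _).trans_le (hyn a)) (h1 a a') (norm_nonneg _)
        (by positivity))) (hyn a') (norm_nonneg _)
          (mul_nonneg (by positivity) ((norm_nonneg _).trans (h1 a a'))))).trans he2
  have eB : ‖(∑ a, star (y a) * Hb * y a) - ∑ b, star (v b) * Hb * v b‖ ≤ ε / 3 := by
    have hs : ∀ g : Fin n → A, ((∑ a, g a : A) : Unitization ℂ A)
        = ∑ a, (g a : Unitization ℂ A) := fun g =>
      map_sum (Unitization.inrNonUnitalStarAlgHom ℂ A) g _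
    have e : (∑ a, star (y a) * Hb * y a) - ∑ b, star (v b) * Hb * v b
        = ((K : ℝ) : ℂ) • ∑ b, ∑ b', star (v b)
            * (((∑ a, star (x a b) * H * x a b' : A) : Unitization ℂ A)
              - (if b = b' then (H : Unitization ℂ A) else 0)) * v b' := by
      simp only [mul_sub, sub_mul, Finset.sum_sub_distrib, mul_ite, ite_mul, mul_zero, zero_mul,
        Finset.sum_ite_eq, Finset.mem_univ, if_true, smul_sub, hKb, Finset.smul_sum, smul_mul_assoc,
        mul_smul_comm, y, hs, Unitization.inr_mul, Unitization.inr_star]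
      congr 1
      simp only [star_sum, star_mul, Finset.sum_mul, Finset.mul_sum, Finset.smul_sum, mul_assoc]
      refine (Finset.sum_congr rfl fun a _ => Finset.sum_comm).trans (Finset.sum_comm.trans ?_)
      exact Finset.sum_congr rfl fun b _ => Finset.sum_comm
    rw [e, norm_smul, Complex.norm_real, Real.norm_of_nonneg hK.le]
    refine (mul_le_mul_of_nonneg_left (norm_sum_le_of_le _ fun b _ => norm_sum_le_of_le _ fun b' _ =>
      (norm_mul_le _ _).trans (mul_le_mul_of_nonneg_right ((norm_mul_le _ _).trans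
        (mul_le_mul (norm_star _).le (hxe b b') (norm_nonneg _) (norm_nonneg _))) (norm_nonneg _)))
      hK.le).trans ?_
    simp only [← Finset.mul_sum, ← Finset.sum_mul]
    refine le_trans ?_ he1
    rw [mul_assoc K (Vb * Vb) ε₁]
    refine mul_le_mul_of_nonneg_left ?_ hK.le
    calc (∑ b, ‖v b‖) * ε₁ * (∑ b, ‖v b‖) ≤ Vb * ε₁ * Vb :=
          mul_le_mul (mul_le_mul_of_nonneg_right hv hε₁0) hv
            (Finset.sum_nonneg fun b _ => norm_nonneg _) (mul_nonneg hVb hε₁0)
      _ = _ := by ring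
  calc _ = ‖(star (∑ a, u a * y a) * (star (z : Unitization ℂ A) * z) * (∑ a, u a * y a)
        - ∑ a, star (y a) * Hb * y a)
        + ((∑ a, star (y a) * Hb * y a) - ∑ b, star (v b) * Hb * v b)
        + ((∑ b, star (v b) * Hb * v b) - star (z : Unitization ℂ A) * z)‖ := by congr 1; abel
    _ ≤ ε / 3 + ε / 3 + ε / 3 :=
        (norm_add_le _ _).trans (add_le_add ((norm_add_le _ _).trans (add_le_add eA eB)) h2)
    _ = ε := by ring

theorem norm_conj_sub (s z : A) : ‖star s * (star z * z) * s - star z * z‖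
    = ‖star (s : Unitization ℂ A) * (star (z : Unitization ℂ A) * z) * s
        - star (z : Unitization ℂ A) * z‖ := by
  rw [← Unitization.norm_inr (𝕜 := ℂ)]
  simp [Unitization.inr_mul, Unitization.inr_star]

theorem norm_cross (s M t : A) : ‖star s * M * t‖
    = ‖star (s : Unitization ℂ A) * (M : Unitization ℂ A) * t‖ := by
  rw [← Unitization.norm_inr (𝕜 := ℂ)]
  simp [Unitization.inr_mul, Unitization.inr_star]

theorem norm_star_sum_mul_sum_le {n : ℕ} {u u' y y' : Fin n → Unitization ℂ A}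
    {M : Unitization ℂ A} {Y r : ℝ} (hY : 0 ≤ Y) (hy : ∀ a, ‖y a‖ ≤ Y) (hy' : ∀ a, ‖y' a‖ ≤ Y)
    (h : ∀ a a', ‖star (u a) * M * u' a'‖ ≤ r) :
    ‖star (∑ a, u a * y a) * M * (∑ a, u' a * y' a)‖ ≤ (n : ℝ) * n * (Y * r * Y) := by
  have e : star (∑ a, u a * y a) * M * (∑ a, u' a * y' a)
      = ∑ a, ∑ a', star (y a) * (star (u a) * M * u' a') * y' a' := by
    simp only [star_sum, star_mul, Finset.sum_mul, Finset.mul_sum, mul_assoc]
    exact Finset.sum_comm
  rw [e]
  exact norm_double_sum_le _ fun a a' => (norm_mul_le _ _).trans (mul_le_mul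
    ((norm_mul_le _ _).trans (mul_le_mul ((norm_star _).trans_le (hy a)) (h a a') (norm_nonneg _) hY))
    (hy' a') (norm_nonneg _) (mul_nonneg hY ((norm_nonneg _).trans (h a a'))))

/-- Central translates lifted to sequences. -/
theorem exists_translates [TopologicalSpace.SeparableSpace A] (hw : (w : Filter ℕ) ≤ cofinite)
    (hno : NoChar A w) (n : ℕ) :
    ∃ (dl : CSeq A w) (ul : Fin 2 × Fin n → CSeq A w) (vl : Fin (2 ^ (2 * n + 1)) → CSeq A w),
      (∀ i j, cls (star (ul i) * ul j) = cls (if i = j then star dl * dl else 0)) ∧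
      cls (∑ b, star (vl b) * (star dl * dl) * vl b) = cls (1 : CSeq A w) := by
  classical
  obtain ⟨d, uF, vF, hu, hv⟩ := piecesFPin A w hw hno (2 * n)
  have hle : 2 * n ≤ 2 ^ (2 * n) := (2 * n).lt_two_pow_self.le
  let f : Fin 2 × Fin n → Fin (2 ^ (2 * n)) := fun i => Fin.castLE hle (finProdFinEquiv i)
  have hf : Function.Injective f := (Fin.castLE_injective _).comp finProdFinEquiv.injective
  obtain ⟨dl, rfl⟩ := Ideal.Quotient.mk_surjective d
  choose ul hul using fun i => Ideal.Quotient.mk_surjective (uF i)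
  choose vl hvl using fun i => Ideal.Quotient.mk_surjective (vF i)
  refine ⟨dl, fun i => ul (f i), vl, fun i j => ?_, ?_⟩
  · have h1 := hu (f i) (f j)
    rw [← hul, ← hul] at h1
    split_ifs with hij
    · rw [if_pos (congrArg f hij)] at h1; exact h1
    · rw [if_neg (hf.ne hij)] at h1; exact h1.trans (map_zero _).symm
  · refine Eq.trans ?_ (hv.trans (map_one _).symm)
    refine (map_sum (Ideal.Quotient.mk (annIdeal (inrSet A) w)) _ _).trans ?_
    refine Finset.sum_congr rfl fun b _ => ?_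
    rw [← hvl]; rfl

/-- Two positive elements carried into orthogonal central translates. -/
theorem exists_pair [TopologicalSpace.SeparableSpace A] (hw : (w : Filter ℕ) ≤ cofinite)
    (hno : NoChar A w) (hA : IsWeaklyPurelyInfinite A) (z₀ z₁ M : A) {ε : ℝ} (hε : 0 < ε) :
    ∃ s t : A, ‖star s * (star z₀ * z₀) * s - star z₀ * z₀‖ ≤ ε ∧
      ‖star t * (star z₁ * z₁) * t - star z₁ * z₁‖ ≤ ε ∧ ‖star s * M * t‖ ≤ ε := by
  classical
  obtain ⟨n, hn, hA⟩ := hA
  obtain ⟨dl, ul, vl, hun, hvn⟩ := exists_translates (A := A) hw hno n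
  set c : CSeq A w := star dl * dl with hc
  set Vb := ∑ b, ‖(vl b).1‖ with hVb
  have hVb0 : 0 ≤ Vb := Finset.sum_nonneg fun b _ => norm_nonneg _
  set K := ‖(dl.1)‖ * ‖(dl.1)‖ * (‖z₀‖ * ‖z₀‖ + ‖z₁‖ * ‖z₁‖) + 1 with hK
  have hK1 : 0 < K := by positivity
  set ε₁ := min 1 (ε / (3 * (K * (Vb * Vb) + 1))) with hε₁
  have hε₁0 : 0 < ε₁ := lt_min one_pos (by positivity)
  obtain ⟨C, hC, hb⟩ := hA.absorbs_bounded hn (2 ^ (2 * n + 1)) hε₁0 (min_le_left _ _)
  set Y := C * Vb with hY
  set ε₂ := ε / (3 * ((n : ℝ) * n * (Y * Y) + 1)) with hε₂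
  have hε₂0 : 0 < ε₂ := by positivity
  have hnn : (n : ℝ) * n * (Y * ε₂ * Y) ≤ ε / 3 := by
    rw [hε₂]
    calc (n : ℝ) * n * (Y * (ε / (3 * ((n : ℝ) * n * (Y * Y) + 1))) * Y)
        = (n : ℝ) * n * (Y * Y) / ((n : ℝ) * n * (Y * Y) + 1) * (ε / 3) := by field_simp
      _ ≤ 1 * (ε / 3) := mul_le_mul_of_nonneg_right
          (by rw [div_le_one (by positivity)]; linarith) (by positivity)
      _ = _ := one_mul _
  -- one index
  have ev1 : ∀ (z : A) (i : Fin 2) (a a' : Fin n), ∀ᶠ k in (w : Filter ℕ),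
      ‖star ((ul (i, a)).1 k) * (star (z : Unitization ℂ A) * z) * (ul (i, a')).1 k
        - (if a = a' then star (z : Unitization ℂ A) * c.1 k * z else 0)‖ ≤ ε₂ := by
    intro z i a a'
    have h := tendsto_middle z (hun (i, a) (i, a'))
    filter_upwards [Metric.tendsto_nhds.1 h ε₂ hε₂0] with k hk
    rw [dist_zero_right] at hk
    refine le_trans (le_of_eq ?_) hk.le
    by_cases ha : a = a'
    · simp [ha]
    · simp [ha]
  have ev2 : ∀ z : A, ∀ᶠ k in (w : Filter ℕ),
      ‖(∑ b, star ((vl b).1 k) * (star (z : Unitization ℂ A) * c.1 k * z) * (vl b).1 k)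
        - star (z : Unitization ℂ A) * z‖ ≤ ε / 3 := by
    intro z
    filter_upwards [Metric.tendsto_nhds.1 (tendsto_cover z hvn) (ε / 3) (by positivity)] with k hk
    rw [dist_zero_right] at hk
    exact hk.le
  have ev3 : ∀ a a' : Fin n, ∀ᶠ k in (w : Filter ℕ),
      ‖star ((ul (0, a)).1 k) * (M : Unitization ℂ A) * (ul (1, a')).1 k‖ ≤ ε₂ := by
    intro a a'
    have h := tendsto_orth M (a := ul (0, a)) (b := ul (1, a')) (by
      rw [hun, if_neg (by simp)])
    filter_upwards [Metric.tendsto_nhds.1 h ε₂ hε₂0] with k hk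
    rw [dist_zero_right] at hk
    exact hk.le
  obtain ⟨k, ⟨⟨h10, h11⟩, ⟨h20, h21⟩⟩, h3⟩ :=
    (((((eventually_all.2 fun a => eventually_all.2 fun a' => ev1 z₀ 0 a a')).and
      (eventually_all.2 fun a => eventually_all.2 fun a' => ev1 z₁ 1 a a')).and
        ((ev2 z₀).and (ev2 z₁))).and
          (eventually_all.2 fun a => eventually_all.2 fun a' => ev3 a a')).exists
  -- absorbing elements at that index
  have step : ∀ (z : A) (i : Fin 2), ‖z‖ * ‖z‖ ≤ ‖z₀‖ * ‖z₀‖ + ‖z₁‖ * ‖z₁‖ →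
      (∀ a a', ‖star ((ul (i, a)).1 k) * (star (z : Unitization ℂ A) * z) * (ul (i, a')).1 k
        - (if a = a' then star (z : Unitization ℂ A) * c.1 k * z else 0)‖ ≤ ε₂) →
      ‖(∑ b, star ((vl b).1 k) * (star (z : Unitization ℂ A) * c.1 k * z) * (vl b).1 k)
        - star (z : Unitization ℂ A) * z‖ ≤ ε / 3 →
      ∃ y : Fin n → Unitization ℂ A, (∀ a, InA (y a) ∧ ‖y a‖ ≤ Y) ∧
        ‖star (∑ a, (ul (i, a)).1 k * y a) * (star (z : Unitization ℂ A) * z)
          * (∑ a, (ul (i, a)).1 k * y a) - star (z : Unitization ℂ A) * z‖ ≤ ε := by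
    intro z i hz h1 h2
    refine exists_carry (d := dl.1 k) (u := fun a => (ul (i, a)).1 k)
      (v := fun b => (vl b).1 k) (ε₁ := ε₁) (ε₂ := ε₂) hC hK1 hε₁0.le ?_
      (Finset.sum_le_sum fun b _ => (vl b).1.norm_coe_le_norm k) ?_ ?_ hb ?_ ?_
    · calc ‖dl.1 k‖ * ‖z‖ * (‖dl.1 k‖ * ‖z‖) = ‖dl.1 k‖ * ‖dl.1 k‖ * (‖z‖ * ‖z‖) := by ring
        _ ≤ ‖dl.1‖ * ‖dl.1‖ * (‖z₀‖ * ‖z₀‖ + ‖z₁‖ * ‖z₁‖) :=
            mul_le_mul (mul_self_le_mul_self (norm_nonneg _) (dl.1.norm_coe_le_norm k)) hz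
              (mul_self_nonneg _) (mul_self_nonneg _)
        _ ≤ K := by rw [hK]; linarith
    · calc K * (Vb * Vb) * ε₁ ≤ K * (Vb * Vb) * (ε / (3 * (K * (Vb * Vb) + 1))) :=
            mul_le_mul_of_nonneg_left (min_le_right _ _) (by positivity)
        _ = K * (Vb * Vb) / (K * (Vb * Vb) + 1) * (ε / 3) := by field_simp
        _ ≤ 1 * (ε / 3) := mul_le_mul_of_nonneg_right
            (by rw [div_le_one (by positivity)]; linarith) (by positivity)
        _ = _ := one_mul _
    · exact hnn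
    · intro a a'; exact h1 a a'
    · exact h2
  obtain ⟨y₀, hy₀, he₀⟩ := step z₀ 0 (le_add_of_nonneg_right (mul_self_nonneg _)) h10 h20
  obtain ⟨y₁, hy₁, he₁⟩ := step z₁ 1 (le_add_of_nonneg_left (mul_self_nonneg _)) h11 h21
  obtain ⟨s, hs⟩ := (InA.sum Finset.univ (fun a => (ul (0, a)).1 k * y₀ a)
    fun a _ => (hy₀ a).1.mul_left _).exists_inr
  obtain ⟨t, ht⟩ := (InA.sum Finset.univ (fun a => (ul (1, a)).1 k * y₁ a)
    fun a _ => (hy₁ a).1.mul_left _).exists_inr
  refine ⟨s, t, ?_, ?_, ?_⟩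
  · rw [norm_conj_sub, hs]; exact he₀
  · rw [norm_conj_sub, ht]; exact he₁
  · rw [norm_cross, hs, ht]
    exact (norm_star_sum_mul_sum_le (by positivity) (fun a => (hy₀ a).2) (fun a => (hy₁ a).2) h3).trans
      (hnn.trans (by linarith))

theorem purelyInfinite_of_noChar [TopologicalSpace.SeparableSpace A]
    (hw : (w : Filter ℕ) ≤ cofinite) (hno : NoChar A w) (hA : IsWeaklyPurelyInfinite A) :
    IsPurelyInfinite A ∧ IsStronglyPurelyInfinite A := by
  refine ⟨fun h hh ε hε => ?_, fun x y hx hy ε hε => ?_⟩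
  · obtain ⟨z, rfl⟩ := hh
    obtain ⟨s, t, hs, ht, hst⟩ := exists_pair hw hno hA z z (star z * z) hε
    refine ⟨![s, t], fun p q => ?_⟩
    have hts : ‖star t * (star z * z) * s‖ ≤ ε := by
      rw [← norm_star, show star (star t * (star z * z) * s) = star s * (star z * z) * t by
        simp only [star_mul, star_star, mul_assoc]]
      exact hst
    fin_cases p <;> fin_cases q <;> simp [hs, ht, hst, hts]
  · obtain ⟨x', rfl⟩ := hx
    obtain ⟨y', rfl⟩ := hy
    obtain ⟨s, t, hs, ht, hst⟩ := exists_pair hw hno hA (star x' * x') (star y' * y')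
      ((star x' * x') * (star y' * y')) (half_pos hε)
    simp only [star_mul, star_star] at hs ht
    exact ⟨s, t, hs.trans_lt (half_lt_self hε), ht.trans_lt (half_lt_self hε),
      hst.trans_lt (half_lt_self hε)⟩

end Vale.Agent.P133
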