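import Vale.Agent.P133.Defs
import Vale.Agent.P095.W.CompareBasic

/-!
P133: iterated and norm bounded forms of weak pure infiniteness.
-/

namespace Vale.Agent.P133

open Filter Vale.Agent.P095.W
open scoped Topology

variable {A : Type} [NonUnitalCStarAlgebra A]

/-- The amplification to size `n` absorbs `ι` many copies. -/
def Absorbs (A : Type) [NonUnitalCStarAlgebra A] (n : ℕ) (ι : Type) : Prop :=
  ∀ h : A, IsPositive h → ∀ ε : ℝ, 0 < ε → ∃ x : Fin n → ι → A,
    ∀ p q, (p = q → ‖(∑ a, star (x a p) * h * x a q) - h‖ ≤ ε) ∧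
      (p ≠ q → ‖∑ a, star (x a p) * h * x a q‖ ≤ ε)

theorem Absorbs.reindex {n : ℕ} {ι κ : Type} (f : κ → ι) (hf : Function.Injective f)
    (h : Absorbs A n ι) : Absorbs A n κ := fun a ha ε hε => by
  obtain ⟨x, hx⟩ := h a ha ε hε
  exact ⟨fun b p => x b (f p), fun p q =>
    ⟨fun e => (hx _ _).1 (congrArg f e), fun e => (hx _ _).2 (hf.ne e)⟩⟩

theorem IsNPurelyInfinite.absorbs_double {n : ℕ} (h : IsNPurelyInfinite A n) :
    Absorbs A n (Fin (2 * n)) := fun a ha ε hε => by
  obtain ⟨x, hx⟩ := h a ha ε hε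
  refine ⟨x, fun p q => ⟨fun e => ?_, fun e => ?_⟩⟩
  · have := hx p q; rwa [if_pos e] at this
  · have := hx p q; rwa [if_neg e, sub_zero] at this

/-- Doubling. -/
theorem IsNPurelyInfinite.absorbs_step {n : ℕ} (h : IsNPurelyInfinite A n) {ι : Type} [Fintype ι]
    (hι : Absorbs A n ι) : Absorbs A n (Fin 2 × ι) := by
  classical
  intro a ha ε hε
  obtain ⟨x₂, hx₂⟩ := hι a ha (ε / 2) (half_pos hε)
  set M := ∑ b, ∑ p, ‖x₂ b p‖ with hM
  have hM0 : 0 ≤ M := Finset.sum_nonneg fun b _ => Finset.sum_nonneg fun p _ => norm_nonneg _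
  have hxM : ∀ p, ∑ b, ‖x₂ b p‖ ≤ M := fun p => by
    refine Finset.sum_le_sum fun b _ => ?_
    exact Finset.single_le_sum (f := fun p => ‖x₂ b p‖) (fun q _ => norm_nonneg _) (Finset.mem_univ p)
  clear_value M
  obtain ⟨x₁, hx₁⟩ := h a ha (ε / 2 / (M * M + 1)) (by positivity)
  let k : Fin 2 × Fin n → Fin (2 * n) := finProdFinEquiv
  refine ⟨fun c sp => ∑ b, x₁ c (k (sp.1, b)) * x₂ b sp.2, fun p q => ?_⟩
  have e1 : ∀ (s : Fin 2) (b : Fin n) (t : Fin 2) (b' : Fin n), k (s, b) = k (t, b') ↔ s = t ∧ b = b' :=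
    fun s b t b' => by simp [k]
  have main : ‖(∑ c, star (∑ b, x₁ c (k (p.1, b)) * x₂ b p.2) * a
      * (∑ b, x₁ c (k (q.1, b)) * x₂ b q.2))
      - (if p.1 = q.1 then ∑ b, star (x₂ b p.2) * a * x₂ b q.2 else 0)‖ ≤ ε / 2 := by
    have e : (∑ c, star (∑ b, x₁ c (k (p.1, b)) * x₂ b p.2) * a
          * (∑ b, x₁ c (k (q.1, b)) * x₂ b q.2))
        - (if p.1 = q.1 then ∑ b, star (x₂ b p.2) * a * x₂ b q.2 else 0)
        = ∑ b, ∑ b', star (x₂ b p.2) * ((∑ c, star (x₁ c (k (p.1, b))) * a * x₁ c (k (q.1, b')))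
          - if k (p.1, b) = k (q.1, b') then a else 0) * x₂ b' q.2 := by
      simp only [mul_sub, sub_mul, Finset.sum_sub_distrib, e1, ite_and]
      congr 1
      · simp only [star_sum, star_mul, Finset.sum_mul, Finset.mul_sum, mul_assoc]
        refine (Finset.sum_congr rfl fun c _ => Finset.sum_comm).trans ?_
        rw [Finset.sum_comm]
        exact Finset.sum_congr rfl fun b _ => Finset.sum_comm
      · split_ifs with hpq
        · simp [mul_ite, ite_mul]
        · simp
    rw [e]
    refine (norm_sum_le_of_le _ fun b _ => norm_sum_le_of_le _ fun b' _ =>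
      (norm_mul_le _ _).trans (mul_le_mul_of_nonneg_right ((norm_mul_le _ _).trans
        (mul_le_mul_of_nonneg_left (hx₁ _ _) (norm_nonneg _))) (norm_nonneg _))).trans ?_
    simp only [norm_star]
    rw [show ∑ b, ∑ b', ‖x₂ b p.2‖ * (ε / 2 / (M * M + 1)) * ‖x₂ b' q.2‖
      = ε / 2 / (M * M + 1) * ((∑ b, ‖x₂ b p.2‖) * ∑ b, ‖x₂ b q.2‖) by
        rw [Finset.sum_mul_sum]; simp only [Finset.mul_sum]
        exact Finset.sum_congr rfl fun b _ => Finset.sum_congr rfl fun b' _ => by ring]
    calc _ ≤ ε / 2 / (M * M + 1) * (M * M) := mul_le_mul_of_nonneg_left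
          (mul_le_mul (hxM _) (hxM _) (Finset.sum_nonneg fun b _ => norm_nonneg _) hM0) (by positivity)
      _ ≤ ε / 2 := by
          rw [div_mul_eq_mul_div, div_le_iff₀ (by positivity)]
          nlinarith [mul_self_nonneg M]
  constructor
  · intro e
    subst e
    rw [if_pos rfl] at main
    have := (hx₂ p.2 p.2).1 rfl
    have h3 := norm_add_le _ _ |>.trans (add_le_add main this)
    rw [sub_add_sub_cancel] at h3
    linarith
  · intro e
    by_cases h1 : p.1 = q.1
    · rw [if_pos h1] at main
      have := (hx₂ p.2 q.2).2 fun h2 => e (Prod.ext h1 h2)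
      have h3 := norm_add_le _ _ |>.trans (add_le_add main this)
      rw [sub_add_cancel] at h3
      linarith
    · rw [if_neg h1, sub_zero] at main
      linarith

theorem IsNPurelyInfinite.absorbs {n : ℕ} (hn : 0 < n) (h : IsNPurelyInfinite A n) (R : ℕ) :
    Absorbs A n (Fin R) := by
  suffices h' : ∀ k : ℕ, Absorbs A n (Fin (2 ^ k * n)) by
    refine (h' R).reindex (Fin.castLE ?_) (Fin.castLE_injective _)
    exact R.lt_two_pow_self.le.trans (Nat.le_mul_of_pos_right _ hn)
  intro k
  induction k with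
  | zero => exact h.absorbs_double.reindex (Fin.castLE (by omega)) (Fin.castLE_injective _)
  | succ k ih =>
    refine (h.absorbs_step ih).reindex (fun i => finProdFinEquiv.symm (Fin.cast (by ring) i)) ?_
    exact finProdFinEquiv.symm.injective.comp (Fin.cast_injective _)

/-- The part of the line above a level, as a factor. -/
noncomputable def level (η s : ℝ) : ℝ := min 1 (max 0 (s / η - 1))

/-- Norm bounded absorption, with a bound depending only on the margin. -/
theorem IsNPurelyInfinite.absorbs_bounded {n : ℕ} (hn : 0 < n) (h : IsNPurelyInfinite A n)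
    (R : ℕ) {ε : ℝ} (hε : 0 < ε) (hε1 : ε ≤ 1) :
    ∃ C : ℝ, 0 ≤ C ∧ ∀ H : A, IsPositive H → ‖H‖ ≤ 1 → ∃ x : Fin n → Fin R → A,
      (∀ a p, ‖x a p‖ ≤ C) ∧ ∀ p q,
        ‖((∑ a, star (x a p) * H * x a q : A) : Unitization ℂ A)
          - (if p = q then (H : Unitization ℂ A) else 0)‖ ≤ ε := by
  classical
  set η := ε / 4 with hη
  have hη0 : 0 < η := by positivity
  refine ⟨2 / Real.sqrt η, by positivity, fun H hH hH1 => ?_⟩
  let := CStarAlgebra.spectralOrder (Unitization ℂ A)
  have := CStarAlgebra.spectralOrderedRing (Unitization ℂ A)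
  set Hb : Unitization ℂ A := (H : Unitization ℂ A) with hHb
  have hH0 : 0 ≤ Hb := by
    obtain ⟨z, rfl⟩ := hH
    rw [hHb, Unitization.inr_mul, Unitization.inr_star]
    exact star_mul_self_nonneg _
  have hHs : IsSelfAdjoint Hb := .of_nonneg hH0
  have hsp : ∀ s ∈ spectrum ℝ Hb, 0 ≤ s ∧ s ≤ 1 := fun s hs =>
    ⟨spectrum_nonneg_of_nonneg hH0 hs, (le_abs_self s).trans
      ((spectrum.norm_le_norm_of_mem hs).trans ((Unitization.norm_inr (𝕜 := ℂ) H).trans_le hH1))⟩
  have hlc : Continuous (level η) := by unfold level; fun_prop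
  have hl0 : ∀ s, 0 ≤ level η s := fun s => le_min zero_le_one (le_max_left _ _)
  have hl1 : ∀ s, level η s ≤ 1 := fun s => min_le_left _ _
  have hmax : ∀ s : ℝ, 0 < max s η := fun s => lt_max_of_lt_right hη0
  have hsupp : ∀ s, level η s ≠ 0 → max s η = s := fun s hs => by
    refine max_eq_left ?_
    by_contra hlt
    rw [not_le] at hlt
    refine hs ?_
    have : s / η - 1 ≤ 0 := by rw [sub_nonpos, div_le_one hη0]; exact hlt.le
    simp [level, max_eq_left this]
  let fr : ℝ → ℝ := fun s => level η s / max s η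
  let fq : ℝ → ℝ := fun s => level η s / Real.sqrt (max s η)
  have hfrc : Continuous fr := hlc.div (by fun_prop) fun s => (hmax s).ne'
  have hfqc : Continuous fq := hlc.div (by fun_prop) fun s => (Real.sqrt_pos.2 (hmax s)).ne'
  set g := cfc (level η) Hb with hg
  have hgA : InA g := by
    have e : g = Hb * cfc fr Hb := by
      have e0 : Hb * cfc fr Hb = cfc (fun s => s * fr s) Hb := by
        rw [cfc_mul (fun s => s) fr Hb continuousOn_id hfrc.continuousOn, cfc_id' ℝ Hb hHs]
      rw [e0]
      refine cfc_congr fun s _ => ?_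
      show level η s = s * (level η s / max s η)
      by_cases hs : level η s = 0
      · simp [hs]
      · rw [hsupp s hs, mul_div_cancel₀]
        exact fun h0 => hs (by simp [level, h0])
    rw [e]
    exact (inA_inr H).mul_right _
  obtain ⟨gA, hgA'⟩ := hgA.exists_inr
  have hG : IsPositive (star gA * gA) := ⟨gA, rfl⟩
  have hGe : ((star gA * gA : A) : Unitization ℂ A) = cfc (fun s => level η s * level η s) Hb := by
    rw [Unitization.inr_mul, Unitization.inr_star, hgA', hg, IsSelfAdjoint.cfc.star_eq,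
      cfc_mul (level η) (level η) Hb hlc.continuousOn hlc.continuousOn]
  obtain ⟨X, hX⟩ := h.absorbs hn R (star gA * gA) hG (ε / 4) (by positivity)
  set S := cfc Real.sqrt Hb
  set q := cfc fq Hb with hq
  have hSs : star S = S := IsSelfAdjoint.cfc.star_eq
  have hqs : star q = q := IsSelfAdjoint.cfc.star_eq
  have hSn : ‖S‖ ≤ 1 := norm_cfc_le zero_le_one fun s hs => by
    rw [Real.norm_eq_abs, abs_of_nonneg (Real.sqrt_nonneg _), Real.sqrt_le_one]
    exact (hsp s hs).2
  have hqq : q * Hb * q = cfc (fun s => level η s * level η s) Hb := by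
    have e0 : q * Hb * q = cfc (fun s => fq s * s * fq s) Hb := by
      rw [cfc_mul (fun s => fq s * s) fq Hb (hfqc.mul continuous_id).continuousOn hfqc.continuousOn,
        cfc_mul fq (fun s => s) Hb hfqc.continuousOn continuousOn_id, cfc_id' ℝ Hb hHs]
    rw [e0]
    refine cfc_congr fun s _ => ?_
    show level η s / Real.sqrt (max s η) * s * (level η s / Real.sqrt (max s η)) = _
    by_cases hs : level η s = 0
    · simp [hs]
    · have hs0 : 0 < s := hsupp s hs ▸ hmax s
      rw [hsupp s hs]
      field_simp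
      rw [Real.sq_sqrt hs0.le]
  have hcl : ‖S * cfc (fun s => level η s * level η s) Hb * S - Hb‖ ≤ 2 * η := by
    have e : S * cfc (fun s => level η s * level η s) Hb * S - Hb
        = cfc (fun s => Real.sqrt s * (level η s * level η s) * Real.sqrt s - s) Hb := by
      rw [cfc_sub (fun s => Real.sqrt s * (level η s * level η s) * Real.sqrt s) (fun s => s) Hb
          (by fun_prop) (by fun_prop), cfc_id' ℝ Hb hHs,
        cfc_mul (fun s => Real.sqrt s * (level η s * level η s)) Real.sqrt Hb (by fun_prop)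
          (by fun_prop),
        cfc_mul Real.sqrt (fun s => level η s * level η s) Hb (by fun_prop) (by fun_prop)]
    rw [e]
    refine norm_cfc_le (by positivity) fun s hs => ?_
    rw [mul_right_comm, Real.mul_self_sqrt (hsp s hs).1, Real.norm_eq_abs, abs_le]
    rcases le_or_gt (2 * η) s with hb | hb
    · have : level η s = 1 := by
        simp only [level]
        have h2 : 1 ≤ s / η - 1 := by rw [le_sub_iff_add_le, le_div_iff₀ hη0]; linarith
        rw [max_eq_right (by linarith), min_eq_left h2]
      rw [this]; constructor <;> linarith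
    · have h2 := mul_le_one₀ (hl1 s) (hl0 s) (hl1 s)
      have h3 := mul_nonneg (hsp s hs).1 (mul_nonneg (hl0 s) (hl0 s))
      have h4 := mul_le_of_le_one_right (hsp s hs).1 h2
      constructor <;> linarith
  have hxA : ∀ a p, InA (q * (X a p : Unitization ℂ A) * S) :=
    fun a p => ((inA_inr _).mul_left _).mul_right _
  choose x hx using fun a p => (hxA a p).exists_inr
  have hsum : ∀ p p', ((∑ a, star (x a p) * H * x a p' : A) : Unitization ℂ A)
      = S * ((∑ a, star (X a p) * (star gA * gA) * X a p' : A) : Unitization ℂ A) * S := by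
    intro p p'
    have hs' : ∀ f : Fin n → A, ((∑ i, f i : A) : Unitization ℂ A) = ∑ i, (f i : Unitization ℂ A) :=
      fun f => map_sum (Unitization.inrNonUnitalStarAlgHom ℂ A) f _
    rw [hs', hs']
    simp only [Unitization.inr_mul, Unitization.inr_star, hx, ← hHb, Finset.mul_sum, Finset.sum_mul,
      star_mul, hSs, hqs, hgA']
    refine Finset.sum_congr rfl fun a _ => ?_
    rw [show star g * g = q * Hb * q by
      rw [hqq, hg, IsSelfAdjoint.cfc.star_eq, cfc_mul (level η) (level η) Hb hlc.continuousOn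
        hlc.continuousOn]]
    simp only [mul_assoc]
  have hXn : ∀ a p, ‖g * (X a p : Unitization ℂ A)‖ ≤ 2 := by
    intro a p
    have h1 : 0 ≤ star (g * (X a p : Unitization ℂ A)) * (g * (X a p : Unitization ℂ A)) :=
      star_mul_self_nonneg _
    have h2 : star (g * (X a p : Unitization ℂ A)) * (g * (X a p : Unitization ℂ A))
        ≤ ∑ b, star (g * (X b p : Unitization ℂ A)) * (g * (X b p : Unitization ℂ A)) :=
      Finset.single_le_sum (f := fun b => star (g * (X b p : Unitization ℂ A))
        * (g * (X b p : Unitization ℂ A))) (fun b _ => star_mul_self_nonneg _) (Finset.mem_univ a)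
    have h3 := CStarAlgebra.norm_le_norm_of_nonneg_of_le h1 h2
    have e : ∑ b, star (g * (X b p : Unitization ℂ A)) * (g * (X b p : Unitization ℂ A))
        = ((∑ b, star (X b p) * (star gA * gA) * X b p : A) : Unitization ℂ A) := by
      rw [show ((∑ b, star (X b p) * (star gA * gA) * X b p : A) : Unitization ℂ A)
        = Unitization.inrNonUnitalStarAlgHom ℂ A (∑ b, star (X b p) * (star gA * gA) * X b p) from rfl,
        map_sum]
      simp [hgA', mul_assoc]
    rw [e, Unitization.norm_inr, CStarRing.norm_star_mul_self] at h3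
    have h4 := (hX p p).1 rfl
    have h5 : ‖star gA * gA‖ ≤ 1 := by
      rw [CStarRing.norm_star_mul_self]
      have : ‖gA‖ ≤ 1 := by
        rw [← Unitization.norm_inr (𝕜 := ℂ) gA, hgA', hg]
        exact norm_cfc_le zero_le_one fun s _ => by
          rw [Real.norm_eq_abs, abs_of_nonneg (hl0 s)]; exact hl1 s
      exact mul_le_one₀ this (norm_nonneg _) this
    nlinarith [norm_le_norm_add_norm_sub (star gA * gA) (∑ b, star (X b p) * (star gA * gA) * X b p),
      norm_sub_rev (star gA * gA) (∑ b, star (X b p) * (star gA * gA) * X b p),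
      norm_nonneg (g * (X a p : Unitization ℂ A))]
  refine ⟨x, fun a p => ?_, fun p p' => ?_⟩
  · rw [← Unitization.norm_inr (𝕜 := ℂ), hx]
    have e : q = cfc (fun s => 1 / Real.sqrt (max s η)) Hb * g := by
      rw [hg, ← cfc_mul (fun s => 1 / Real.sqrt (max s η)) (level η) Hb
        (Continuous.div continuous_const (by fun_prop)
          fun s => (Real.sqrt_pos.2 (hmax s)).ne').continuousOn hlc.continuousOn, hq]
      exact cfc_congr fun s _ => by simp only [fq]; ring
    have h1 : ‖cfc (fun s => 1 / Real.sqrt (max s η)) Hb‖ ≤ 1 / Real.sqrt η :=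
      norm_cfc_le (by positivity) fun s _ => by
        rw [Real.norm_eq_abs, abs_of_nonneg (by positivity)]
        exact one_div_le_one_div_of_le (Real.sqrt_pos.2 hη0) (Real.sqrt_le_sqrt (le_max_right _ _))
    rw [e, mul_assoc (cfc (fun s => 1 / Real.sqrt (max s η)) Hb)]
    calc ‖cfc (fun s => 1 / Real.sqrt (max s η)) Hb * (g * (X a p : Unitization ℂ A)) * S‖
        ≤ 1 / Real.sqrt η * 2 * 1 := (norm_mul_le _ _).trans (mul_le_mul ((norm_mul_le _ _).trans
          (mul_le_mul h1 (hXn a p) (norm_nonneg _) (by positivity))) hSn (norm_nonneg _)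
            (by positivity))
      _ = _ := by ring
  · rw [hsum]
    set T : A := ∑ a, star (X a p) * (star gA * gA) * X a p'
    have hb : ‖S * ((T : Unitization ℂ A) - (if p = p' then cfc (fun s => level η s * level η s) Hb
        else 0)) * S‖ ≤ ε / 4 := by
      refine ((norm_mul_le _ _).trans (mul_le_of_le_one_right (norm_nonneg _) hSn)).trans
        (((norm_mul_le _ _).trans (mul_le_of_le_one_left (norm_nonneg _) hSn)).trans ?_)
      split_ifs with hpp
      · rw [← hGe, ← Unitization.inr_sub, Unitization.norm_inr]; exact (hX p p').1 hpp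
      · rw [sub_zero, Unitization.norm_inr]; exact (hX p p').2 hpp
    split_ifs at hb ⊢ with hpp
    · have e : S * (T : Unitization ℂ A) * S - Hb
          = S * ((T : Unitization ℂ A) - cfc (fun s => level η s * level η s) Hb) * S
            + (S * cfc (fun s => level η s * level η s) Hb * S - Hb) := by
        rw [mul_sub, sub_mul]; abel
      rw [e]
      linarith [norm_add_le (S * ((T : Unitization ℂ A) - cfc (fun s => level η s * level η s) Hb) * S)
        (S * cfc (fun s => level η s * level η s) Hb * S - Hb)]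
    · rw [sub_zero] at hb ⊢; linarith

end Vale.Agent.P133
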