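import Vale.Agent.P133.Theta
import Vale.Agent.P133.Scale
import Vale.Agent.P095.W.AmplifyA

/-!
P133: a weakly purely infinite algebra of finite nuclear dimension has a central sequence algebra
without characters.
-/

namespace Vale.Agent.P133

open Filter Matrix Vale.Agent.P101 Vale.Agent.P095.W
open scoped Topology BoundedContinuousFunction Matrix.Norms.L2Operator MatrixOrder ComplexOrder

noncomputable local instance cseqNoCharDim {A : Type} [NonUnitalCStarAlgebra A] (w : Ultrafilter ℕ) :
    CStarAlgebra (centralSeq (w : Filter ℕ) (Unitization ℂ A)) :=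
  StarSubalgebra.cstarAlgebra _ (h_closed := isClosed_centralSeq w)

variable {A : Type} [NonUnitalCStarAlgebra A]

/-- A map into matrices as the inclusion into the unitization. -/
noncomputable def inrMap {N : ℕ} (φ : Matrix (Fin N) (Fin N) ℂ →ₗ[ℂ] A) :
    Matrix (Fin N) (Fin N) ℂ →ₗ[ℂ] Unitization ℂ A where
  toFun T := (φ T : Unitization ℂ A)
  map_add' S T := by rw [map_add, Unitization.inr_add]
  map_smul' r T := by rw [map_smul, Unitization.inr_smul]; rfl

theorem pairGram_posSemidef {N : ℕ} {ψ : A →ₗ[ℂ] Matrix (Fin N) (Fin N) ℂ} (hψ : IsCPTo ψ)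
    (e a : A) :
    (pairGram (ψ (star e * e)) (ψ (star e * a)) (ψ (star a * a))).PosSemidef
      ∧ star (ψ (star e * a)) = ψ (star a * e) := by
  have h := hψ 2 ![e, a]
  have hs : star (ψ (star e * a)) = ψ (star a * e) := by
    ext i j
    have := congrFun₂ h.isHermitian (1, i) (0, j)
    simpa [Matrix.conjTranspose_apply] using this
  refine ⟨?_, hs⟩
  convert h using 1
  ext ⟨p, i⟩ ⟨q, j⟩
  fin_cases p <;> fin_cases q <;> simp [pairGram, hs, Matrix.of_apply]

/-- One colour of one stage. -/
structure Colour (A : Type) [NonUnitalCStarAlgebra A] where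
  /-- The size. -/
  N : ℕ
  /-- The blocks. -/
  β : Fin N → Fin N
  /-- The map back. -/
  φ : Matrix (Fin N) (Fin N) ℂ →ₗ[ℂ] A
  /-- The image of the almost unit. -/
  P : Matrix (Fin N) (Fin N) ℂ
  oz : OrderZero β (inrMap φ)
  bd : BlockDiag β P
  pos : 0 ≤ P
  le_one : ‖P‖ ≤ 1

/-- The value of a colour at the almost unit. -/
noncomputable def Colour.k (c : Colour A) : Unitization ℂ A := inrMap c.φ c.P

/-- The blockwise copies of a colour. -/
noncomputable def Colour.th (c : Colour A) (y : Fin c.N → Unitization ℂ A) : Unitization ℂ A :=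
  theta c.β (inrMap c.φ) y c.P

theorem exists_stage {d : ℕ} (hd : HasNuclearDimensionLE A d) (S : Finset A) {r : ℝ} (hr : 0 < r)
    (hr1 : r ≤ 1) :
    ∃ c : Fin (d + 1) → Colour A, ∀ a ∈ S,
      (∀ (l : Fin (d + 1)) (y : Fin (c l).N → Unitization ℂ A) (C : ℝ), 0 ≤ C → (∀ i, ‖y i‖ ≤ C) →
        ‖(c l).th y * (a : Unitization ℂ A) - (a : Unitization ℂ A) * (c l).th y‖
          ≤ C * (r * (6 + 3 * ‖a‖))) ∧
      (∀ l, ‖(c l).k * (a : Unitization ℂ A) - (a : Unitization ℂ A) * (c l).k‖
          ≤ r * (6 + 3 * ‖a‖)) ∧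
      ‖((∑ l, (c l).k) - 1) * (a : Unitization ℂ A)‖ ≤ r * (6 + 3 * ‖a‖) := by
  classical
  let := CStarAlgebra.spectralOrder (Unitization ℂ A)
  have := CStarAlgebra.spectralOrderedRing (Unitization ℂ A)
  set S' := S ∪ S.image star
  have hS' : ∀ a ∈ S, a ∈ S' ∧ star a ∈ S' := fun a ha =>
    ⟨Finset.mem_union_left _ ha, Finset.mem_union_right _ (Finset.mem_image_of_mem _ ha)⟩
  set η := r * r with hη
  have hη0 : 0 < η := by positivity
  have hη1 : η ≤ r := mul_le_of_le_one_left hr.le hr1
  obtain ⟨e, hes, he1, heu⟩ := exists_unit S' hη0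
  obtain ⟨N, β, ψ, φ, hdata, happ⟩ := hd
    ({star e * e} ∪ S'.image (fun a => star e * a) ∪ S'.image (fun a => star a * e)
      ∪ S'.image fun a => star a * a) η hη0
  have hpos : ∀ l, 0 ≤ ψ l (star e * e) := fun l => Matrix.nonneg_iff_posSemidef.2
    (((hdata l).1 1 fun _ => e).submatrix fun i => ((0 : Fin 1), i))
  have hee : ‖star e * e‖ ≤ 1 := by
    rw [CStarRing.norm_star_mul_self]; exact mul_le_one₀ he1 (norm_nonneg _) he1
  let c : Fin (d + 1) → Colour A := fun l =>
    { N := N l, β := β l, φ := φ l, P := ψ l (star e * e)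
      oz := ⟨fun m T b => isPos_inr_form (hdata l).2.2.2.1 T b,
        fun T => (Unitization.norm_inr (𝕜 := ℂ) _).trans_le ((hdata l).2.2.2.2.1 T),
        fun T T' h1 h2 h3 => by
          show ((φ l T : A) : Unitization ℂ A) * ((φ l T' : A) : Unitization ℂ A) = 0
          rw [← Unitization.inr_mul, (hdata l).2.2.2.2.2 T T' h1 h2 h3, Unitization.inr_zero]⟩
      bd := (hdata l).2.2.1 _
      pos := hpos l
      le_one := ((hdata l).2.1 _).trans hee }
  refine ⟨c, ?_⟩
  have hsum : ∀ x : A, ‖(∑ l, φ l (ψ l x)) - x‖ ≤ η →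
      ‖(∑ l, inrMap (φ l) (ψ l x)) - (x : Unitization ℂ A)‖ ≤ η := by
    intro x hx
    rw [show (∑ l, inrMap (φ l) (ψ l x)) = ((∑ l, φ l (ψ l x) : A) : Unitization ℂ A) from
      (map_sum (Unitization.inrNonUnitalStarAlgHom ℂ A) _ _).symm, ← Unitization.inr_sub,
      Unitization.norm_inr]
    exact hx
  have hdef : ∀ a ∈ S', ∀ l, ‖defect (inrMap (φ l)) (ψ l (star e * e)) (ψ l (star e * a))
      (ψ l (star a * a)) (a : Unitization ℂ A)‖ ≤ (r * (2 + ‖a‖)) * (r * (2 + ‖a‖)) := by
    intro a ha l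
    have hnn : ∀ l, 0 ≤ defect (inrMap (φ l)) (ψ l (star e * e)) (ψ l (star e * a))
        (ψ l (star a * a)) (a : Unitization ℂ A) := fun l =>
      ((c l).oz.defect_pieces (pairGram_posSemidef (hdata l).1 e a).1 ((hdata l).2.2.1 _)
        ((hdata l).2.2.1 _) (c l).le_one _).1
    refine (CStarAlgebra.norm_le_norm_of_nonneg_of_le (hnn l) (Finset.single_le_sum
      (f := fun l => defect (inrMap (φ l)) (ψ l (star e * e)) (ψ l (star e * a))
        (ψ l (star a * a)) (a : Unitization ℂ A)) (fun l _ => hnn l) (Finset.mem_univ l))).trans ?_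
    have e1 : ∀ l, inrMap (φ l) (star (ψ l (star e * a))) = inrMap (φ l) (ψ l (star a * e)) :=
      fun l => by rw [(pairGram_posSemidef (hdata l).1 e a).2]
    set α : Unitization ℂ A := (a : Unitization ℂ A)
    have d1 := hsum (star e * e) (happ _ (by simp))
    have d2 := hsum (star e * a)
      (happ _ (by simp only [Finset.mem_union, Finset.mem_image]; exact Or.inl (Or.inl (Or.inr ⟨a, ha, rfl⟩))))
    have d3 := hsum (star a * e)
      (happ _ (by simp only [Finset.mem_union, Finset.mem_image]; exact Or.inl (Or.inr ⟨a, ha, rfl⟩)))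
    have d4 := hsum (star a * a)
      (happ _ (by simp only [Finset.mem_union, Finset.mem_image]; exact Or.inr ⟨a, ha, rfl⟩))
    set u1 := (∑ l, inrMap (φ l) (ψ l (star e * e))) - ((star e * e : A) : Unitization ℂ A) with hu1
    set u2 := (∑ l, inrMap (φ l) (ψ l (star e * a))) - ((star e * a : A) : Unitization ℂ A) with hu2
    set u3 := (∑ l, inrMap (φ l) (ψ l (star a * e))) - ((star a * e : A) : Unitization ℂ A) with hu3
    set u4 := (∑ l, inrMap (φ l) (ψ l (star a * a))) - ((star a * a : A) : Unitization ℂ A) with hu4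
    set v : Unitization ℂ A := ((e * a - a : A) : Unitization ℂ A) with hv
    have e2 : (∑ l, defect (inrMap (φ l)) (ψ l (star e * e)) (ψ l (star e * a))
        (ψ l (star a * a)) α) = star v * v + star α * u1 * α - star α * u2 - u3 * α + u4 := by
      simp only [defect, e1, Finset.sum_add_distrib, Finset.sum_sub_distrib, ← Finset.mul_sum,
        ← Finset.sum_mul, hu1, hu2, hu3, hu4, hv, Unitization.inr_mul, Unitization.inr_star,
        Unitization.inr_sub, star_sub, star_mul, mul_sub, sub_mul, mul_assoc, α,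
        show star (e : Unitization ℂ A) = (e : Unitization ℂ A) by rw [← Unitization.inr_star, hes]]
      abel
    rw [e2]
    have hv1 : ‖v‖ ≤ η := by rw [hv, Unitization.norm_inr]; exact (heu a ha).1
    have hα : ‖α‖ = ‖a‖ := Unitization.norm_inr (𝕜 := ℂ) a
    calc ‖star v * v + star α * u1 * α - star α * u2 - u3 * α + u4‖
        ≤ η * η + ‖a‖ * η * ‖a‖ + ‖a‖ * η + η * ‖a‖ + η := by
          refine (norm_add_le _ _).trans (add_le_add ((norm_sub_le _ _).trans (add_le_add
            ((norm_sub_le _ _).trans (add_le_add ((norm_add_le _ _).trans (add_le_add ?_ ?_)) ?_))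
            ?_)) d4)
          · rw [CStarRing.norm_star_mul_self]; exact mul_le_mul hv1 hv1 (norm_nonneg _) hη0.le
          · refine (norm_mul_le _ _).trans ?_
            rw [hα]
            refine mul_le_mul_of_nonneg_right ((norm_mul_le _ _).trans ?_) (norm_nonneg _)
            rw [norm_star, hα]
            exact mul_le_mul_of_nonneg_left d1 (norm_nonneg _)
          · refine (norm_mul_le _ _).trans ?_
            rw [norm_star, hα]
            exact mul_le_mul_of_nonneg_left d2 (norm_nonneg _)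
          · refine (norm_mul_le _ _).trans ?_
            rw [hα]
            exact mul_le_mul_of_nonneg_right d3 (norm_nonneg _)
      _ ≤ (r * (2 + ‖a‖)) * (r * (2 + ‖a‖)) := by
          rw [hη]
          have h4 : r * r * (r * r) ≤ r * r := by
            nlinarith [mul_le_one₀ hr1 hr.le hr1]
          nlinarith [norm_nonneg a, mul_nonneg hη0.le (norm_nonneg a)]
  intro a ha
  obtain ⟨ha1, ha2⟩ := hS' a ha
  have hX : ∀ l, ‖ψ l (star e * star a) - star (ψ l (star e * a))‖ ≤ 2 * η := fun l => by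
    rw [(pairGram_posSemidef (hdata l).1 e a).2, ← map_sub]
    refine ((hdata l).2.1 _).trans ?_
    rw [hes, show e * star a - star a * e = (e * star a - star a) - (star a * e - star a) by abel]
    exact (norm_sub_le _ _).trans (by linarith [(heu _ ha2).1, (heu _ ha2).2])
  have hns : ‖star a‖ = ‖a‖ := norm_star a
  refine ⟨fun l y C hC hy => ?_, fun l => ?_, ?_⟩
  · have h := (c l).oz.norm_theta_comm_le (pairGram_posSemidef (hdata l).1 e a).1
      (pairGram_posSemidef (hdata l).1 e (star a)).1 (c l).bd ((hdata l).2.2.1 _)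
      ((hdata l).2.2.1 _) (c l).le_one (δ := r * (2 + ‖a‖)) (by positivity) hC (hdef a ha1 l)
      (by rw [← Unitization.inr_star]; exact hns ▸ hdef _ ha2 l) hy
    refine h.trans (mul_le_mul_of_nonneg_left ?_ hC)
    have := hX l
    nlinarith [norm_nonneg a]
  · have key : ∀ b ∈ S', ‖(c l).k * (b : Unitization ℂ A) - inrMap (φ l) (ψ l (star e * b))‖
        ≤ r * (2 + ‖b‖) := by
      intro b hb
      have h := ((c l).oz.defect_pieces (pairGram_posSemidef (hdata l).1 e b).1
        ((hdata l).2.2.1 _) ((hdata l).2.2.1 _) (c l).le_one (b : Unitization ℂ A)).2.1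
      have h2 := (CStarAlgebra.norm_le_norm_of_nonneg_of_le (star_mul_self_nonneg _) h).trans
        (hdef b hb l)
      rw [CStarRing.norm_star_mul_self] at h2
      exact (mul_self_le_mul_self_iff (norm_nonneg _) (by positivity)).2 h2
    have h1 := key a ha1
    have h2 := key _ ha2
    have hk : star ((c l).k) = (c l).k := by
      show star (inrMap (φ l) _) = _
      rw [← star_map_of_cp (c l).oz.cp, (IsSelfAdjoint.of_nonneg (hpos l)).star_eq]
      rfl
    rw [← norm_star, star_sub, star_mul, ← Unitization.inr_star (star a), star_star, hk,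
      ← star_map_of_cp (c l).oz.cp, hns] at h2
    have h3 : ‖inrMap (φ l) (star (ψ l (star e * star a))) - inrMap (φ l) (ψ l (star e * a))‖
        ≤ 2 * η := by
      rw [← map_sub]
      refine ((c l).oz.norm_le _).trans ?_
      rw [← norm_star, star_sub, star_star]
      exact hX l
    calc _ = ‖((c l).k * (a : Unitization ℂ A) - inrMap (φ l) (ψ l (star e * a)))
          - ((a : Unitization ℂ A) * (c l).k - inrMap (φ l) (star (ψ l (star e * star a))))
          - (inrMap (φ l) (star (ψ l (star e * star a))) - inrMap (φ l) (ψ l (star e * a)))‖ := by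
          congr 1; abel
      _ ≤ r * (2 + ‖a‖) + r * (2 + ‖a‖) + 2 * η := (norm_sub_le _ _).trans
          (add_le_add ((norm_sub_le _ _).trans (add_le_add h1 h2)) h3)
      _ ≤ _ := by nlinarith [norm_nonneg a]
  · have d1 := hsum (star e * e) (happ _ (by simp))
    have e3 : ((∑ l, (c l).k) - 1) * (a : Unitization ℂ A)
        = ((∑ l, inrMap (φ l) (ψ l (star e * e))) - ((star e * e : A) : Unitization ℂ A))
            * (a : Unitization ℂ A)
          + ((e * (e * a - a) + (e * a - a) : A) : Unitization ℂ A) := by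
      show ((∑ l, inrMap (φ l) (ψ l (star e * e))) - 1) * (a : Unitization ℂ A) = _
      simp only [hes, Unitization.inr_add, Unitization.inr_sub, Unitization.inr_mul, sub_mul,
        mul_sub, one_mul, mul_assoc]
      abel
    rw [e3]
    have hv := (heu a ha1).1
    calc _ ≤ η * ‖a‖ + (1 * η + η) := (norm_add_le _ _).trans (add_le_add
          ((norm_mul_le _ _).trans (mul_le_mul d1 (Unitization.norm_inr (𝕜 := ℂ) a).le
            (norm_nonneg _) hη0.le))
          ((Unitization.norm_inr (𝕜 := ℂ) _).trans_le ((norm_add_le _ _).trans (add_le_add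
            ((norm_mul_le _ _).trans (mul_le_mul he1 hv (norm_nonneg _) zero_le_one)) hv))))
      _ ≤ _ := by nlinarith [norm_nonneg a]

/-- A bounded sequence almost commuting with a dense sequence is central. -/
theorem exists_cseq {u : ℕ → A} (hu : DenseRange u) (w : Ultrafilter ℕ) {f : ℕ → Unitization ℂ A}
    {C : ℝ} (hf : ∀ k, ‖f k‖ ≤ C)
    (h : ∀ i, Tendsto (fun k => f k * (u i : Unitization ℂ A) - (u i : Unitization ℂ A) * f k)
      (w : Filter ℕ) (𝓝 0)) :
    ∃ F : CSeq A w, ∀ k, F.1 k = f k := by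
  refine ⟨⟨BoundedContinuousFunction.ofNormedAddCommGroupDiscrete f C hf, fun b => ?_⟩, fun k => rfl⟩
  rw [Metric.tendsto_nhds]
  intro ε hε
  have hC : 0 ≤ C := (norm_nonneg _).trans (hf 0)
  obtain ⟨i, hi⟩ := hu.exists_dist_lt b.snd (show 0 < ε / (4 * (C + 1)) by positivity)
  rw [dist_eq_norm] at hi
  filter_upwards [Metric.tendsto_nhds.1 (h i) (ε / 2) (half_pos hε)] with k hk
  rw [dist_zero_right] at hk ⊢
  show ‖f k * b - b * f k‖ < ε
  have hb : b = algebraMap ℂ (Unitization ℂ A) b.fst + (u i : Unitization ℂ A)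
      + ((b.snd - u i : A) : Unitization ℂ A) := by
    refine Unitization.ext ?_ ?_ <;> simp [Unitization.algebraMap_eq_inl]
  have e : f k * b - b * f k = (f k * (u i : Unitization ℂ A) - (u i : Unitization ℂ A) * f k)
      + (f k * ((b.snd - u i : A) : Unitization ℂ A)
        - ((b.snd - u i : A) : Unitization ℂ A) * f k) := by
    conv_lhs => rw [hb]
    simp only [mul_add, add_mul, Algebra.commutes]
    abel
  rw [e]
  refine lt_of_le_of_lt ((norm_add_le _ _).trans (add_le_add le_rfl ((norm_sub_le _ _).trans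
    (add_le_add (norm_mul_le _ _) (norm_mul_le _ _))))) ?_
  rw [Unitization.norm_inr]
  have h1 : ‖f k‖ * ‖b.snd - u i‖ ≤ C * (ε / (4 * (C + 1))) :=
    mul_le_mul (hf k) hi.le (norm_nonneg _) hC
  have h2 : C * (ε / (4 * (C + 1))) ≤ ε / 4 := by
    rw [mul_div_assoc', div_le_div_iff₀ (by positivity) (by norm_num)]
    nlinarith
  linarith [mul_comm ‖b.snd - u i‖ ‖f k‖]

/-- Characters are nonnegative on pointwise nonnegative sequences. -/
theorem char_nonneg [PartialOrder (Unitization ℂ A)] [StarOrderedRing (Unitization ℂ A)]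
    (w : Ultrafilter ℕ) (χ : CSeq A w →⋆ₐ[ℂ] ℂ) (F : CSeq A w) (hF : ∀ k, 0 ≤ F.1 k) :
    0 ≤ (χ F).re := by
  let := CStarAlgebra.spectralOrder (ℕ →ᵇ Unitization ℂ A)
  have := CStarAlgebra.spectralOrderedRing (ℕ →ᵇ Unitization ℂ A)
  have hb : ∀ k, ‖CFC.sqrt (F.1 k)‖ ≤ Real.sqrt ‖F.1‖ := fun k => by
    refine Real.le_sqrt_of_sq_le ?_
    have h : star (CFC.sqrt (F.1 k)) * CFC.sqrt (F.1 k) = F.1 k := by
      rw [(IsSelfAdjoint.of_nonneg (CFC.sqrt_nonneg _)).star_eq,
        CFC.sqrt_mul_sqrt_self _ (hF k)]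
    rw [sq, ← CStarRing.norm_star_mul_self, h]
    exact F.1.norm_coe_le_norm k
  let R : ℕ →ᵇ Unitization ℂ A :=
    BoundedContinuousFunction.ofNormedAddCommGroupDiscrete (fun k => CFC.sqrt (F.1 k)) _ hb
  have h0 : (0 : ℕ →ᵇ Unitization ℂ A) ≤ F.1 := by
    have e : star R * R = F.1 := by
      ext1 k
      show star (CFC.sqrt (F.1 k)) * CFC.sqrt (F.1 k) = F.1 k
      rw [(IsSelfAdjoint.of_nonneg (CFC.sqrt_nonneg _)).star_eq,
        CFC.sqrt_mul_sqrt_self _ (hF k)]
    exact e ▸ star_mul_self_nonneg R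
  have hm : χ F ∈ spectrum ℂ F := AlgHom.apply_mem_spectrum χ F
  rw [StarSubalgebra.spectrum_eq (hS := isClosed_centralSeq (A := Unitization ℂ A) w)] at hm
  exact (Complex.nonneg_iff.1 (spectrum_nonneg_of_nonneg h0 hm)).1

/-- A matrix with more columns than rows has a null vector. -/
theorem exists_null {n : ℕ} (hn : 0 < n) (M : Fin n → Fin (2 * n) → ℂ) :
    ∃ v : Fin (2 * n) → ℂ, (∑ p, ‖v p‖ ^ 2) = 1 ∧ ∀ a, ∑ p, M a p * v p = 0 := by
  obtain ⟨v, hv, hv0⟩ := Submodule.exists_mem_ne_zero_of_ne_bot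
    (LinearMap.ker_ne_bot_of_finrank_lt (f := (Matrix.of M).mulVecLin)
      (by simp [Module.finrank_fintype_fun_eq_card]; omega))
  obtain ⟨p₀, hp₀⟩ := Function.ne_iff.1 hv0
  have hs : 0 < ∑ p, ‖v p‖ ^ 2 := lt_of_lt_of_le (by positivity)
    (Finset.single_le_sum (f := fun p => ‖v p‖ ^ 2) (fun p _ => sq_nonneg _) (Finset.mem_univ p₀))
  refine ⟨fun p => ((Real.sqrt (∑ p, ‖v p‖ ^ 2))⁻¹ : ℝ) * v p, ?_, fun a => ?_⟩
  · simp only [norm_mul, Complex.norm_real, mul_pow, ← Finset.mul_sum, Real.norm_eq_abs, sq_abs]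
    rw [inv_pow, Real.sq_sqrt hs.le, inv_mul_cancel₀ hs.ne']
  · simp only [mul_left_comm (M a _), ← Finset.mul_sum]
    have := congrFun (LinearMap.mem_ker.1 hv) a
    rw [Matrix.mulVecLin_apply] at this
    have e : ∑ p, M a p * v p = 0 := this
    rw [e, mul_zero]

/-- Scalars: an `n` by `2n` array cannot be orthogonal with nonzero columns. -/
theorem rank_bound {n : ℕ} (hn : 0 < n) (z : Fin n → Fin (2 * n) → ℂ) (t : ℂ) {ε : ℝ} (hε : 0 ≤ ε)
    (h : ∀ p q, ‖(∑ a, star (z a p) * z a q) - (if p = q then star t * t else 0)‖ ≤ ε) :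
    ‖t‖ ^ 2 ≤ 2 * n * ε := by
  obtain ⟨v, hv1, hv0⟩ := exists_null hn z
  have e : ∑ p, ∑ q, star (v p) * ((∑ a, star (z a p) * z a q)
      - (if p = q then star t * t else 0)) * v q = -(star t * t) := by
    simp only [mul_sub, sub_mul, Finset.sum_sub_distrib]
    have e1 : ∑ p, ∑ q, star (v p) * (∑ a, star (z a p) * z a q) * v q = 0 := by
      simp only [Finset.mul_sum, Finset.sum_mul]
      refine ((Finset.sum_congr rfl fun p _ => Finset.sum_comm).trans Finset.sum_comm).trans ?_
      refine Finset.sum_eq_zero fun a _ => ?_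
      rw [show ∑ p, ∑ q, star (v p) * (star (z a p) * z a q) * v q
        = (∑ p, star (v p) * star (z a p)) * ∑ q, z a q * v q by
          rw [Finset.sum_mul_sum]
          exact Finset.sum_congr rfl fun p _ => Finset.sum_congr rfl fun q _ => by ring,
        hv0 a, mul_zero]
    rw [e1, zero_sub]
    congr 1
    simp only [mul_ite, ite_mul, mul_zero, zero_mul, Finset.sum_ite_eq, Finset.mem_univ, if_true]
    have e2 : (∑ p, star (v p) * v p) = (1 : ℂ) := by
      have : ∀ p, star (v p) * v p = ((‖v p‖ ^ 2 : ℝ) : ℂ) := fun p => by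
        rw [Complex.star_def, ← Complex.normSq_eq_conj_mul_self, Complex.normSq_eq_norm_sq]
      simp only [this, ← Complex.ofReal_sum, hv1, Complex.ofReal_one]
    calc ∑ p, star (v p) * (star t * t) * v p = (star t * t) * ∑ p, star (v p) * v p := by
          rw [Finset.mul_sum]; exact Finset.sum_congr rfl fun p _ => by ring
      _ = _ := by rw [e2, mul_one]
  have h1 := norm_sum_le_of_le Finset.univ fun p (_ : p ∈ Finset.univ) =>
    norm_sum_le_of_le Finset.univ fun q (_ : q ∈ Finset.univ) =>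
      (norm_mul_le (star (v p) * ((∑ a, star (z a p) * z a q)
        - (if p = q then star t * t else 0))) (v q)).trans
        (mul_le_mul_of_nonneg_right ((norm_mul_le _ _).trans
          (mul_le_mul_of_nonneg_left (h p q) (norm_nonneg _))) (norm_nonneg _))
  rw [e, norm_neg, norm_mul, norm_star] at h1
  have h2 : (∑ p, ‖v p‖) ^ 2 ≤ 2 * n := by
    have := sq_sum_le_card_mul_sum_sq (s := (Finset.univ : Finset (Fin (2 * n))))
      (f := fun p => ‖v p‖)
    rw [hv1, mul_one, Finset.card_univ, Fintype.card_fin] at this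
    exact_mod_cast this
  have h3 : ∑ p, ∑ q, ‖star (v p)‖ * ε * ‖v q‖ = ε * (∑ p, ‖v p‖) ^ 2 := by
    rw [sq, Finset.sum_mul_sum, Finset.mul_sum]
    simp only [norm_star, Finset.mul_sum]
    exact Finset.sum_congr rfl fun p _ => Finset.sum_congr rfl fun q _ => by ring
  rw [h3] at h1
  nlinarith [mul_le_mul_of_nonneg_left h2 hε]

/-- The array built from absorbing elements is almost orthogonal. -/
theorem Colour.entry_le [PartialOrder (Unitization ℂ A)] [StarOrderedRing (Unitization ℂ A)]
    (c : Colour A) {n R : ℕ} (x : Fin c.N → Fin n → Fin R → A) {ε : ℝ} (hε : 0 ≤ ε) (p q : Fin R)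
    (hxe : ∀ i, ‖((∑ a, star (x i a p) * (star (c.φ (Matrix.single i i 1)) * c.φ (Matrix.single i i 1))
        * x i a q : A) : Unitization ℂ A)
      - (if p = q then ((star (c.φ (Matrix.single i i 1)) * c.φ (Matrix.single i i 1) : A)
          : Unitization ℂ A) else 0)‖ ≤ ε) :
    ‖(∑ a, star (c.th fun i => (x i a p : Unitization ℂ A)) * c.th fun i => (x i a q : Unitization ℂ A))
      - (if p = q then star (c.th fun _ => 1) * c.th (fun _ => 1) else 0)‖ ≤ ε := by
  classical
  let U : Fin c.N → Unitization ℂ A := fun i => inrMap c.φ (toBase c.β i * c.P)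
  let g : Fin c.N → A := fun i => c.φ (Matrix.single i i 1)
  let Z : Fin c.N → Unitization ℂ A := fun i =>
    ((∑ a, star (x (base c.β i) a p) * (star (g (base c.β i)) * g (base c.β i))
      * x (base c.β i) a q : A) : Unitization ℂ A)
    - if p = q then ((star (g (base c.β i)) * g (base c.β i) : A) : Unitization ℂ A) else 0
  have hs : ∀ f : Fin n → A, ((∑ a, f a : A) : Unitization ℂ A) = ∑ a, (f a : Unitization ℂ A) :=
    fun f => map_sum (Unitization.inrNonUnitalStarAlgHom ℂ A) f _
  have e : (∑ a, star (c.th fun i => (x i a p : Unitization ℂ A))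
        * c.th fun i => (x i a q : Unitization ℂ A))
      - (if p = q then star (c.th fun _ => 1) * c.th (fun _ => 1) else 0)
      = ∑ i, star (U i) * Z i * U i := by
    simp only [Colour.th, c.oz.theta_mul_theta]
    rw [Finset.sum_comm]
    simp only [← Finset.sum_mul, ← Finset.mul_sum, U, Z]
    split_ifs with hpq
    · rw [← Finset.sum_sub_distrib]
      refine Finset.sum_congr rfl fun i _ => ?_
      rw [← sub_mul, ← mul_sub]
      congr 3
      · rw [hs]; simp only [Unitization.inr_mul, Unitization.inr_star]; rfl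
      · simp only [star_one, one_mul, mul_one, Unitization.inr_mul, Unitization.inr_star]; rfl
    · simp only [sub_zero]
      refine Finset.sum_congr rfl fun i _ => ?_
      congr 2
      rw [hs]; simp only [Unitization.inr_mul, Unitization.inr_star]; rfl
  have hcol : ‖∑ i, star (U i) * U i‖ ≤ 1 * 1 := by
    simp only [U]
    rw [c.oz.col_sum c.bd c.bd, one_mul]
    refine (norm_mul_le _ _).trans (mul_le_one₀ c.oz.norm_one_le (norm_nonneg _)
      ((c.oz.norm_le _).trans ?_))
    rw [CStarRing.norm_star_mul_self]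
    exact mul_le_one₀ c.le_one (norm_nonneg _) c.le_one
  rw [e]
  have h := norm_sum_mul_mul_le (fun i => star (U i)) Z U (u := 1) (v := 1) (z := ε)
    (by simpa using hcol) (fun i => hxe _) hcol zero_le_one hε zero_le_one
  simpa using h

/-- The square of a colour is below its copies of one. -/
theorem Colour.sq_le [PartialOrder (Unitization ℂ A)] [StarOrderedRing (Unitization ℂ A)]
    (c : Colour A) : star c.k = c.k ∧ star c.k * c.k ≤ c.th fun _ => 1 := by
  have ho := c.oz
  have hs : star c.k = c.k := by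
    rw [Colour.k, ← star_map_of_cp ho.cp, (IsSelfAdjoint.of_nonneg c.pos).star_eq]
  refine ⟨hs, ?_⟩
  have e1 : c.th (fun _ => 1) = inrMap c.φ 1 * inrMap c.φ c.P := by
    rw [Colour.th, theta]
    simp only [mul_one]
    rw [Finset.sum_congr rfl fun i _ => ho.map_mul_map (BlockDiag.toBase i).star
      ((BlockDiag.toBase i).mul c.bd), ← Finset.mul_sum, ← map_sum]
    simp only [← mul_assoc, ← Finset.sum_mul, sum_star_toBase_mul, one_mul]
  rw [hs, e1, Colour.k, ho.map_mul_map c.bd c.bd, ← sub_nonneg, ← mul_sub, ← map_sub]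
  refine Commute.mul_nonneg (ho.map_nonneg zero_le_one) (ho.map_nonneg ?_)
    (ho.commute_one (c.bd.sub (c.bd.mul c.bd)))
  have h1 : 0 ≤ 1 - c.P :=
    sub_nonneg.2 ((CStarAlgebra.norm_le_one_iff_of_nonneg _ c.pos).1 c.le_one)
  have h2 := Commute.mul_nonneg c.pos h1 ((Commute.one_right _).sub_right (Commute.refl _))
  rwa [mul_sub, mul_one] at h2

theorem Colour.norm_phi_single [PartialOrder (Unitization ℂ A)]
    [StarOrderedRing (Unitization ℂ A)] (c : Colour A) (i : Fin c.N) :
    ‖star (c.φ (Matrix.single i i 1)) * c.φ (Matrix.single i i 1)‖ ≤ 1 := by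
  have h1 : ‖c.φ (Matrix.single i i 1)‖ ≤ 1 := by
    rw [← Unitization.norm_inr (𝕜 := ℂ)]
    refine (c.oz.norm_le _).trans ?_
    have h2 := CStarRing.norm_star_mul_self
      (x := (Matrix.single i i 1 : Matrix (Fin c.N) (Fin c.N) ℂ))
    rw [Matrix.star_eq_conjTranspose, Matrix.conjTranspose_single, star_one,
      Matrix.single_mul_single_same, mul_one] at h2
    nlinarith [norm_nonneg (Matrix.single i i 1 : Matrix (Fin c.N) (Fin c.N) ℂ)]
  rw [CStarRing.norm_star_mul_self]
  exact mul_le_one₀ h1 (norm_nonneg _) h1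

theorem noChar_of_finite_dimension [TopologicalSpace.SeparableSpace A] {d : ℕ}
    (hd : HasNuclearDimensionLE A d) (hA : IsWeaklyPurelyInfinite A) (w : Ultrafilter ℕ)
    (hw : (w : Filter ℕ) ≤ cofinite) : NoChar A w := by
  classical
  intro χ hχ
  let := CStarAlgebra.spectralOrder (Unitization ℂ A)
  have := CStarAlgebra.spectralOrderedRing (Unitization ℂ A)
  obtain ⟨n, hn, hA⟩ := hA
  set u := TopologicalSpace.denseSeq A with hu
  have hud : DenseRange u := TopologicalSpace.denseRange_denseSeq A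
  choose c hc using fun k : ℕ => exists_stage hd ((Finset.range k).image u)
    (r := 1 / ((k : ℝ) + 1)) (by positivity) (by
      rw [div_le_one (by positivity)]; linarith [Nat.cast_nonneg (α := ℝ) k])
  have hrate : ∀ (g : ℕ → ℝ) (i : ℕ) (C : ℝ), (∀ k, 0 ≤ g k) →
      (∀ k, i < k → g k ≤ C * (1 / ((k : ℝ) + 1) * (6 + 3 * ‖u i‖))) →
      Tendsto g (w : Filter ℕ) (𝓝 0) := by
    intro g i C h0 h1
    have hlim : Tendsto (fun k : ℕ => C * (1 / ((k : ℝ) + 1) * (6 + 3 * ‖u i‖))) atTop (𝓝 0) := by
      simpa using (tendsto_one_div_add_atTop_nhds_zero_nat.mul_const (6 + 3 * ‖u i‖)).const_mul C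
    exact (squeeze_zero' (Eventually.of_forall h0)
      ((eventually_gt_atTop i).mono h1) hlim).mono_left (hw.trans_eq Nat.cofinite_eq_atTop)
  have hmem : ∀ {i k : ℕ}, i < k → u i ∈ (Finset.range k).image u := fun h =>
    Finset.mem_image_of_mem _ (Finset.mem_range.2 h)
  have hth : ∀ l (y : ∀ k, Fin (c k l).N → Unitization ℂ A) (C : ℝ), 0 ≤ C →
      (∀ k i, ‖y k i‖ ≤ C) → ∃ F : CSeq A w, ∀ k, F.1 k = (c k l).th (y k) := by
    intro l y C hC hy
    refine exists_cseq hud w (fun k => (c k l).oz.norm_theta_le hC (hy k) (c k l).bd (c k l).le_one)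
      fun i => tendsto_zero_iff_norm_tendsto_zero.2 (hrate _ i C (fun k => norm_nonneg _)
        fun k hk => ((hc k) _ (hmem hk)).1 l (y k) C hC (hy k))
  choose T hT using fun l => hth l (fun _ _ => 1) 1 zero_le_one fun _ _ => le_of_eq norm_one
  have hk : ∀ l, ∃ F : CSeq A w, ∀ k, F.1 k = (c k l).k := fun l => by
    refine exists_cseq hud w (C := 1)
      (fun k => ((c k l).oz.norm_le _).trans (c k l).le_one) fun i =>
      tendsto_zero_iff_norm_tendsto_zero.2 (hrate _ i 1 (fun k => norm_nonneg _) fun k hk => ?_)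
    rw [one_mul]
    exact ((hc k) _ (hmem hk)).2.1 l
  choose K hK using hk
  have hTz : ∀ l, χ (T l) = 0 := by
    intro l
    have key : ∀ ε : ℝ, 0 < ε → ε ≤ 1 → ‖χ (T l)‖ ^ 2 ≤ 2 * n * ε := by
      intro ε hε hε1
      obtain ⟨C, hC, hb⟩ := hA.absorbs_bounded hn (2 * n) hε hε1
      choose x hx hxe using fun k i => hb
        (star ((c k l).φ (Matrix.single i i 1)) * (c k l).φ (Matrix.single i i 1)) ⟨_, rfl⟩
        ((c k l).norm_phi_single i)
      choose Sx hSx using fun a p => hth l (fun k i => (x k i a p : Unitization ℂ A)) C hC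
        fun k i => (Unitization.norm_inr (𝕜 := ℂ) _).trans_le (hx k i a p)
      refine rank_bound hn (fun a p => χ (Sx a p)) (χ (T l)) hε.le fun p q => ?_
      have hent : ‖(∑ a, star (Sx a p) * Sx a q) - (if p = q then star (T l) * T l else 0)‖ ≤ ε := by
        refine (BoundedContinuousFunction.norm_le hε.le).2 fun k => ?_
        refine le_of_eq_of_le (congrArg (‖·‖) ?_) ((c k l).entry_le (x k) hε.le p q fun i => hxe k i p q)
        show ((((∑ a, star (Sx a p) * Sx a q) - (if p = q then star (T l) * T l else 0)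
          : CSeq A w)) : ℕ →ᵇ Unitization ℂ A) k = _
        simp only [← hSx, ← hT]
        split_ifs <;> simp
      refine le_of_eq_of_le ?_ ((NonUnitalStarAlgHom.norm_apply_le χ _).trans hent)
      rw [map_sub, map_sum, apply_ite χ, map_zero]
      simp only [map_mul, map_star]
    have h0 : ‖χ (T l)‖ ^ 2 ≤ 0 := by
      refine le_of_forall_pos_le_add fun δ hδ => ?_
      rw [zero_add]
      have hn' : (0 : ℝ) < 2 * n := by positivity
      refine (key (min 1 (δ / (2 * n))) (lt_min one_pos (by positivity)) (min_le_left _ _)).trans ?_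
      exact (mul_le_mul_of_nonneg_left (min_le_right _ _) hn'.le).trans (mul_div_cancel₀ δ hn'.ne').le
    exact norm_eq_zero.1 (pow_eq_zero_iff two_ne_zero |>.1 (le_antisymm h0 (sq_nonneg _)))
  have hKz : ∀ l, χ (K l) = 0 := by
    intro l
    have h := char_nonneg w χ (T l - star (K l) * K l) fun k => by
      show 0 ≤ (T l).1 k - star ((K l).1 k) * (K l).1 k
      rw [hT, hK, sub_nonneg]
      exact (c k l).sq_le.2
    rw [map_sub, map_mul, hTz, map_star, zero_sub, Complex.star_def,
      ← Complex.normSq_eq_conj_mul_self, Complex.neg_re, Complex.ofReal_re] at h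
    exact Complex.normSq_eq_zero.1 (le_antisymm (by linarith) (Complex.normSq_nonneg _))
  have hone := hχ ((∑ l, K l) - 1) fun a => by
    rw [Metric.tendsto_nhds]
    intro ε hε
    have hD : (0 : ℝ) < (d : ℝ) + 2 := by positivity
    obtain ⟨i, hi⟩ := hud.exists_dist_lt a (show 0 < ε / (2 * ((d : ℝ) + 2)) by positivity)
    rw [dist_eq_norm] at hi
    have h1 := hrate (fun k => ‖((∑ l, (c k l).k) - 1) * (u i : Unitization ℂ A)‖) i 1
      (fun k => norm_nonneg _) fun k hk => by rw [one_mul]; exact ((hc k) _ (hmem hk)).2.2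
    filter_upwards [Metric.tendsto_nhds.1 h1 (ε / 2) (half_pos hε)] with k hk
    rw [dist_zero_right, Real.norm_eq_abs, abs_norm] at hk
    rw [dist_zero_right]
    have e : ((((∑ l, K l) - 1 : CSeq A w)) : ℕ →ᵇ Unitization ℂ A) k = (∑ l, (c k l).k) - 1 := by
      simp [hK]
    rw [e]
    have e1 : ((∑ l, (c k l).k) - 1) * (a : Unitization ℂ A)
        = ((∑ l, (c k l).k) - 1) * (u i : Unitization ℂ A)
          + ((∑ l, (c k l).k) - 1) * ((a - u i : A) : Unitization ℂ A) := by
      rw [← mul_add, Unitization.inr_sub, add_sub_cancel]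
    have h2 : ‖(∑ l, (c k l).k) - 1‖ ≤ (d : ℝ) + 2 := by
      refine (norm_sub_le _ _).trans (le_trans (add_le_add (norm_sum_le_of_le _ fun l _ =>
        ((c k l).oz.norm_le _).trans (c k l).le_one) (le_of_eq norm_one)) (le_of_eq ?_))
      simp; ring
    rw [e1]
    refine lt_of_le_of_lt ((norm_add_le _ _).trans (add_le_add le_rfl (norm_mul_le _ _))) ?_
    rw [Unitization.norm_inr]
    have h3 := mul_le_mul h2 hi.le (norm_nonneg _) hD.le
    have h4 : ((d : ℝ) + 2) * (ε / (2 * ((d : ℝ) + 2))) = ε / 2 := by field_simp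
    linarith
  rw [map_sub, map_sum, map_one, Finset.sum_eq_zero fun l _ => hKz l] at hone
  simp at hone

end Vale.Agent.P133
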