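import Vale.Agent.P133.Sep
import Vale.Agent.P133.Glue
import Vale.Agent.P133.NoCharDim

/-!
P133: finite nuclear dimension and weak pure infiniteness give pure and strong pure infiniteness,
with no separability.
-/

namespace Vale.Agent.P133

open Vale.Agent.P095.W TopologicalSpace Filter

variable {A : Type} [NonUnitalCStarAlgebra A]

/-- Every C*-algebra of finite nuclear dimension that is weakly purely infinite is purely and
strongly purely infinite. -/
theorem purelyInfinite_of_dimension {d : ℕ} (hd : HasNuclearDimensionLE A d)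
    (hA : IsWeaklyPurelyInfinite A) : IsPurelyInfinite A ∧ IsStronglyPurelyInfinite A := by
  obtain ⟨n, hn, hn'⟩ := hA
  have main : ∀ S : Set A, S.Countable → ∃ (B : NonUnitalStarSubalgebra ℂ A)
      (_ : IsClosed (B : Set A)), S ⊆ B ∧ IsPurelyInfinite B ∧ IsStronglyPurelyInfinite B := by
    intro S hS
    obtain ⟨B, hBc, hsep, hSB, hBn, hBd⟩ := exists_separable_model hn hn' hd hS
    exact ⟨B, hBc, hSB, purelyInfinite_of_noChar (w := hyperfilter ℕ) hyperfilter_le_cofinite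
      (noChar_of_finite_dimension hBd ⟨n, hn, hBn⟩ (hyperfilter ℕ) hyperfilter_le_cofinite)
      ⟨n, hn, hBn⟩⟩
  refine ⟨?_, ?_⟩
  · rintro h ⟨z, rfl⟩ ε hε
    obtain ⟨B, hBc, hSB, hpi, -⟩ := main {z} (Set.countable_singleton z)
    set zB : B := ⟨z, hSB (Set.mem_singleton z)⟩
    obtain ⟨x, hx⟩ := hpi (star zB * zB) ⟨zB, rfl⟩ ε hε
    refine ⟨fun p => (x p : A), fun p q => le_of_eq_of_le (congrArg norm ?_) (hx p q)⟩
    split_ifs <;> rfl
  · rintro x y ⟨u, rfl⟩ ⟨v, rfl⟩ ε hε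
    obtain ⟨B, hBc, hSB, -, hspi⟩ := main {u, v} (Set.toFinite _).countable
    set uB : B := ⟨u, hSB (Set.mem_insert u _)⟩
    set vB : B := ⟨v, hSB (Set.mem_insert_of_mem u (Set.mem_singleton v))⟩
    obtain ⟨s, t, h1, h2, h3⟩ := hspi (star uB * uB) (star vB * vB) ⟨uB, rfl⟩ ⟨vB, rfl⟩ ε hε
    exact ⟨(s : A), (t : A), h1, h2, h3⟩

end Vale.Agent.P133
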