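import Vale.Agent.P095.W.Defs

/-!
P133: the three notions of pure infiniteness and nuclear dimension.
-/

namespace Vale.Agent.P133

open Vale.Agent.P095.W
open scoped Matrix.Norms.L2Operator ComplexOrder

variable {A : Type} [NonUnitalCStarAlgebra A]

/-- A positive element. -/
def IsPositive (a : A) : Prop := ∃ z : A, star z * z = a

/-- Purely infinite: every positive element absorbs a second copy of itself. -/
def IsPurelyInfinite (A : Type) [NonUnitalCStarAlgebra A] : Prop :=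
  ∀ h : A, IsPositive h → ∀ ε : ℝ, 0 < ε →
    ∃ x : Fin 2 → A, ∀ p q, ‖star (x p) * h * x q - (if p = q then h else 0)‖ ≤ ε

/-- The amplification of every positive element to size `n` is properly infinite. -/
def IsNPurelyInfinite (A : Type) [NonUnitalCStarAlgebra A] (n : ℕ) : Prop :=
  ∀ h : A, IsPositive h → ∀ ε : ℝ, 0 < ε →
    ∃ x : Fin n → Fin (2 * n) → A,
      ∀ p q, ‖(∑ a, star (x a p) * h * x a q) - (if p = q then h else 0)‖ ≤ ε

/-- Weakly purely infinite. -/
def IsWeaklyPurelyInfinite (A : Type) [NonUnitalCStarAlgebra A] : Prop :=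
  ∃ n : ℕ, 0 < n ∧ IsNPurelyInfinite A n

/-- Strongly purely infinite. -/
def IsStronglyPurelyInfinite (A : Type) [NonUnitalCStarAlgebra A] : Prop :=
  ∀ x y : A, IsPositive x → IsPositive y → ∀ ε : ℝ, 0 < ε → ∃ s t : A,
    ‖star s * (x * x) * s - x * x‖ < ε ∧ ‖star t * (y * y) * t - y * y‖ < ε ∧
      ‖star s * (x * y) * t‖ < ε

/-- A matrix supported on the blocks given by a colouring of the indices. -/
def BlockDiag {N : ℕ} (β : Fin N → Fin N) (T : Matrix (Fin N) (Fin N) ℂ) : Prop :=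
  ∀ i j, β i ≠ β j → T i j = 0

/-- Nuclear dimension at most `d`: approximate factorisations of the identity through
finite-dimensional algebras (block diagonal matrices), completely positive contractions, split into
`d + 1` colours on each of which the second map has order zero. -/
def HasNuclearDimensionLE (A : Type) [NonUnitalCStarAlgebra A] (d : ℕ) : Prop :=
  ∀ (S : Finset A) (ε : ℝ), 0 < ε →
    ∃ (N : Fin (d + 1) → ℕ) (β : ∀ l, Fin (N l) → Fin (N l))
      (ψ : ∀ l, A →ₗ[ℂ] Matrix (Fin (N l)) (Fin (N l)) ℂ)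
      (φ : ∀ l, Matrix (Fin (N l)) (Fin (N l)) ℂ →ₗ[ℂ] A),
      (∀ l, IsCPTo (ψ l) ∧ (∀ a, ‖ψ l a‖ ≤ ‖a‖) ∧ (∀ a, BlockDiag (β l) (ψ l a)) ∧
        IsCPFrom (φ l) ∧ (∀ T, ‖φ l T‖ ≤ ‖T‖) ∧
        ∀ T T', BlockDiag (β l) T → BlockDiag (β l) T' → T * T' = 0 → φ l T * φ l T' = 0) ∧
      ∀ a ∈ S, ‖(∑ l, φ l (ψ l a)) - a‖ ≤ ε

end Vale.Agent.P133
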