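import Vale.Agent.P133.Defs
import Vale.Agent.P095.SC.Amplify

/-!
P133: algebra of a completely positive map of order zero on block diagonal matrices.
-/

namespace Vale.Agent.P133

open Matrix Vale.Agent.P095.SN
open scoped Matrix.Norms.L2Operator MatrixOrder ComplexOrder

variable {N : ℕ} {β : Fin N → Fin N}

theorem BlockDiag.one : BlockDiag β (1 : Matrix (Fin N) (Fin N) ℂ) := fun i j h =>
  Matrix.one_apply_ne fun e => h (congrArg β e)

theorem BlockDiag.single {i j : Fin N} (h : β i = β j) (c : ℂ) :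
    BlockDiag β (Matrix.single i j c) := fun a b hab =>
  Matrix.single_apply_of_ne i j c a b fun e => hab (e.1 ▸ e.2 ▸ h)

theorem BlockDiag.mul {T T' : Matrix (Fin N) (Fin N) ℂ} (hT : BlockDiag β T)
    (hT' : BlockDiag β T') : BlockDiag β (T * T') := fun i j h => by
  rw [Matrix.mul_apply]
  refine Finset.sum_eq_zero fun k _ => ?_
  by_cases hk : β i = β k
  · rw [hT' k j (hk ▸ h), mul_zero]
  · rw [hT i k hk, zero_mul]

theorem BlockDiag.sub {T T' : Matrix (Fin N) (Fin N) ℂ} (hT : BlockDiag β T)
    (hT' : BlockDiag β T') : BlockDiag β (T - T') := fun i j h => by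
  simp [hT i j h, hT' i j h]

theorem BlockDiag.star {T : Matrix (Fin N) (Fin N) ℂ} (hT : BlockDiag β T) :
    BlockDiag β (star T) := fun i j h => by simp [hT j i (Ne.symm h)]

variable {B : Type*} [CStarAlgebra B]

/-- A completely positive contraction of order zero on block diagonal matrices. -/
structure OrderZero (β : Fin N → Fin N) (Φ : Matrix (Fin N) (Fin N) ℂ →ₗ[ℂ] B) : Prop where
  cp : IsCPFromMatrix Φ
  norm_le : ∀ T, ‖Φ T‖ ≤ ‖T‖
  orth : ∀ T T', BlockDiag β T → BlockDiag β T' → T * T' = 0 → Φ T * Φ T' = 0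

variable {Φ : Matrix (Fin N) (Fin N) ℂ →ₗ[ℂ] B}

theorem star_map_of_cp (hΦ : IsCPFromMatrix Φ) (T : Matrix (Fin N) (Fin N) ℂ) :
    Φ (star T) = star (Φ T) := by
  have h := star_apply_of_isPos_form (fun k l => Φ ((![1, T] k).conjTranspose * ![1, T] l))
    (fun y => hΦ 2 _ y) 1 0
  simpa [Matrix.star_eq_conjTranspose] using h.symm

theorem OrderZero.map_mul_map (h : OrderZero β Φ) {T T' : Matrix (Fin N) (Fin N) ℂ}
    (hT : BlockDiag β T) (hT' : BlockDiag β T') : Φ T * Φ T' = Φ 1 * Φ (T * T') := by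
  classical
  have h0 : ∀ i j k l, β i = β j → β k = β l → j ≠ k →
      Φ (Matrix.single i j 1) * Φ (Matrix.single k l 1) = 0 := fun i j k l hij hkl hjk =>
    h.orth _ _ (.single hij 1) (.single hkl 1) (Matrix.single_mul_single_of_ne 1 i j k hjk 1)
  have hb : ∀ i j k l, β i = β j → β j = β k → β k = β l →
      Φ (Matrix.single i j 1) * Φ (Matrix.single j l 1)
        = Φ (Matrix.single i k 1) * Φ (Matrix.single k l 1) := by
    intro i j k l hij hjk hkl
    rcases eq_or_ne j k with rfl | hne
    · rfl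
    have d1 : BlockDiag β (Matrix.single i j (1 : ℂ) + Matrix.single i k 1) := fun a b hab => by
      simp [BlockDiag.single hij (1 : ℂ) a b hab, BlockDiag.single (hij.trans hjk) (1 : ℂ) a b hab]
    have d2 : BlockDiag β (Matrix.single j l (1 : ℂ) - Matrix.single k l 1) :=
      (BlockDiag.single (hjk.trans hkl) 1).sub (.single hkl 1)
    have e := h.orth _ _ d1 d2 (by
      simp [add_mul, mul_sub, Matrix.single_mul_single_of_ne, hne, hne.symm])
    rw [map_add, map_sub, add_mul, mul_sub, mul_sub, h0 i j k l hij hkl hne,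
      h0 i k j l (hij.trans hjk) (hjk.trans hkl) hne.symm, sub_zero, zero_sub,
      ← sub_eq_add_neg, sub_eq_zero] at e
    exact e
  have hone : ∀ i l, β i = β l →
      Φ 1 * Φ (Matrix.single i l 1) = Φ (Matrix.single i i 1) * Φ (Matrix.single i l 1) := by
    intro i l hil
    have e1 : (1 : Matrix (Fin N) (Fin N) ℂ) = ∑ j, Matrix.single j j 1 := by
      ext a b
      rw [Matrix.sum_apply, Finset.sum_eq_single a (fun j _ hj =>
        Matrix.single_apply_of_ne _ _ _ _ _ fun e => hj e.1) (by simp)]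
      simp [Matrix.one_apply, Matrix.single_apply]
    rw [e1, map_sum, Finset.sum_mul, Finset.sum_eq_single i
      (fun j _ hj => h0 j j i l rfl hil hj) (by simp)]
  have hdec : ∀ T : Matrix (Fin N) (Fin N) ℂ, BlockDiag β T →
      T = ∑ i, ∑ j, (if β i = β j then T i j else 0) • Matrix.single i j 1 := by
    intro T hT
    conv_lhs => rw [Matrix.matrix_eq_sum_single T]
    refine Finset.sum_congr rfl fun i _ => Finset.sum_congr rfl fun j _ => ?_
    rw [Matrix.smul_single, smul_eq_mul, mul_one]
    split_ifs with hij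
    · rfl
    · rw [hT i j hij]
  rw [hdec T hT, hdec T' hT']
  simp only [map_sum, map_smul, Finset.sum_mul, Finset.mul_sum, smul_mul_assoc, mul_smul_comm,
    Finset.smul_sum, smul_smul]
  refine Finset.sum_congr rfl fun k _ => Finset.sum_congr rfl fun l _ =>
    Finset.sum_congr rfl fun i _ => Finset.sum_congr rfl fun j _ => ?_
  split_ifs with hkl hij
  · rcases eq_or_ne j k with rfl | hne
    · rw [Matrix.single_mul_single_same, mul_one, hone i l (hij.trans hkl),
        hb i i j l rfl hij hkl]
    · rw [h0 i j k l hij hkl hne, Matrix.single_mul_single_of_ne 1 i j k hne 1, map_zero, mul_zero]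
  all_goals simp

theorem OrderZero.commute_one (h : OrderZero β Φ) {T : Matrix (Fin N) (Fin N) ℂ}
    (hT : BlockDiag β T) : Commute (Φ 1) (Φ T) := by
  have e := h.map_mul_map hT BlockDiag.one
  rw [mul_one] at e
  exact e.symm

section Order

variable [PartialOrder B] [StarOrderedRing B]

theorem OrderZero.map_nonneg (h : OrderZero β Φ) {T : Matrix (Fin N) (Fin N) ℂ} (hT : 0 ≤ T) :
    0 ≤ Φ T := by
  obtain ⟨R, rfl⟩ := CStarAlgebra.nonneg_iff_eq_star_mul_self.1 hT
  obtain ⟨z, hz⟩ := h.cp 1 (fun _ => R) (fun _ => 1)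
  simp only [Fin.sum_univ_one, star_one, one_mul, mul_one, ← Matrix.star_eq_conjTranspose] at hz
  exact hz ▸ star_mul_self_nonneg z

omit [PartialOrder B] [StarOrderedRing B] in
theorem OrderZero.norm_one_le (h : OrderZero β Φ) : ‖Φ 1‖ ≤ 1 := by
  refine (h.norm_le 1).trans ?_
  rcases subsingleton_or_nontrivial (Matrix (Fin N) (Fin N) ℂ) with hs | hn
  · simp [Subsingleton.elim (1 : Matrix (Fin N) (Fin N) ℂ) 0]
  · exact le_of_eq norm_one

theorem OrderZero.one_sub_nonneg (h : OrderZero β Φ) : 0 ≤ 1 - Φ 1 :=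
  sub_nonneg.2 ((CStarAlgebra.norm_le_one_iff_of_nonneg _ (h.map_nonneg zero_le_one)).1
    h.norm_one_le)

/-- A row times bounded middle terms times a column. -/
theorem norm_sum_mul_mul_le {ι : Type*} [Fintype ι] (U Z V : ι → B) {u z v : ℝ}
    (hU : ‖∑ i, U i * star (U i)‖ ≤ u * u) (hZ : ∀ i, ‖Z i‖ ≤ z)
    (hV : ‖∑ i, star (V i) * V i‖ ≤ v * v) (hu : 0 ≤ u) (hz : 0 ≤ z) (hv : 0 ≤ v) :
    ‖∑ i, U i * Z i * V i‖ ≤ u * z * v := by
  set H := ∑ i, U i * star (U i)
  set w := ∑ i, U i * (Z i * V i)
  have hG : ‖∑ i, star (Z i * V i) * (Z i * V i)‖ ≤ (z * v) * (z * v) := by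
    have h1 : ∑ i, star (Z i * V i) * (Z i * V i) ≤ (z * z : ℝ) • ∑ i, star (V i) * V i := by
      rw [Finset.smul_sum]
      refine Finset.sum_le_sum fun i _ => ?_
      have h2 := CStarAlgebra.star_left_conjugate_le_norm_smul (a := V i)
        (IsSelfAdjoint.star_mul_self (Z i))
      refine le_trans (le_of_eq ?_) (h2.trans (smul_le_smul_of_nonneg_right ?_
        (star_mul_self_nonneg _)))
      · simp only [star_mul, mul_assoc]
      · rw [CStarRing.norm_star_mul_self]
        exact mul_self_le_mul_self (norm_nonneg _) (hZ i)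
    refine (CStarAlgebra.norm_le_norm_of_nonneg_of_le
      (Finset.sum_nonneg fun i _ => star_mul_self_nonneg _) h1).trans ?_
    rw [norm_smul, Real.norm_of_nonneg (mul_self_nonneg z)]
    calc z * z * ‖∑ i, star (V i) * V i‖ ≤ z * z * (v * v) :=
          mul_le_mul_of_nonneg_left hV (mul_self_nonneg z)
      _ = _ := by ring
  have e0 : ∑ i, U i * Z i * V i = w := Finset.sum_congr rfl fun i _ => mul_assoc _ _ _
  rw [e0]
  have key : ∀ c : ℝ, u * u < c →
      star w * w ≤ c • ∑ i, star (Z i * V i) * (Z i * V i) := by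
    intro c hc
    have hc0 : 0 < c := (mul_self_nonneg u).trans_lt hc
    have h0 : 0 ≤ ∑ i, star (c • (Z i * V i) - star (U i) * w)
        * (c • (Z i * V i) - star (U i) * w) :=
      Finset.sum_nonneg fun i _ => star_mul_self_nonneg _
    have e : ∑ i, star (c • (Z i * V i) - star (U i) * w) * (c • (Z i * V i) - star (U i) * w)
        = c • (c • (∑ i, star (Z i * V i) * (Z i * V i)) - star w * w)
          - (c • (star w * w) - star w * H * w) := by
      have e1 : ∑ i, star (Z i * V i) * (star (U i) * w) = star w * w := by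
        simp only [w, star_sum, star_mul, Finset.sum_mul, mul_assoc]
      have e2 : ∑ i, star (star (U i) * w) * (Z i * V i) = star w * w := by
        simp only [w, star_mul, star_star, mul_assoc, ← Finset.mul_sum]
      simp only [star_sub, star_smul, star_trivial, sub_mul, mul_sub, smul_mul_assoc,
        mul_smul_comm, Finset.sum_sub_distrib, ← Finset.smul_sum, e1, e2, smul_sub]
      rw [show ∑ i, star (star (U i) * w) * (star (U i) * w) = star w * H * w by
        simp only [H, Finset.mul_sum, Finset.sum_mul, star_mul, star_star, mul_assoc]]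
    have hH : star w * H * w ≤ c • (star w * w) := by
      have h2 := CStarAlgebra.star_left_conjugate_le_norm_smul (a := w)
        (IsSelfAdjoint.of_nonneg (Finset.sum_nonneg fun i _ => mul_star_self_nonneg (U i)) :
          IsSelfAdjoint H)
      exact h2.trans (smul_le_smul_of_nonneg_right (hU.trans hc.le) (star_mul_self_nonneg _))
    rw [e] at h0
    have h3 := (sub_nonneg.2 hH).trans (sub_nonneg.1 h0)
    rw [← sub_nonneg]
    have := smul_nonneg (inv_nonneg.2 hc0.le) h3
    rwa [smul_smul, inv_mul_cancel₀ hc0.ne', one_smul] at this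
  refine le_of_forall_pos_le_add fun ε hε => ?_
  have hlt : u * u < (u + ε / (z * v + 1)) * (u + ε / (z * v + 1)) := by
    have : (0 : ℝ) < ε / (z * v + 1) := by positivity
    nlinarith
  have h5 := CStarAlgebra.norm_le_norm_of_nonneg_of_le (star_mul_self_nonneg w) (key _ hlt)
  rw [CStarRing.norm_star_mul_self, norm_smul, Real.norm_of_nonneg (mul_self_nonneg _)] at h5
  have h6 : ‖w‖ ≤ (u + ε / (z * v + 1)) * (z * v) := by
    refine (mul_self_le_mul_self_iff (norm_nonneg _) (by positivity)).2 (h5.trans ?_)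
    calc _ ≤ (u + ε / (z * v + 1)) * (u + ε / (z * v + 1)) * ((z * v) * (z * v)) :=
          mul_le_mul_of_nonneg_left hG (mul_self_nonneg _)
      _ = _ := by ring
  have h7 : ε / (z * v + 1) * (z * v) ≤ ε := by
    rw [div_mul_eq_mul_div, div_le_iff₀ (by positivity)]
    nlinarith
  nlinarith

end Order

end Vale.Agent.P133
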