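import Vale.Agent.P133.Scale

/-!
P133: weak pure infiniteness and finite nuclear dimension pass to enough separable subalgebras.
-/

namespace Vale.Agent.P133

open Vale.Agent.P095.W Set Filter TopologicalSpace
open scoped Matrix.Norms.L2Operator Topology

variable {A : Type} [NonUnitalCStarAlgebra A]

/-- One closing step: sums, products, stars, rational-like multiples and chosen witnesses. -/
def grow (W₁ : A → ℕ → Set A) (W₂ : Finset A → ℕ → Set A) (c : ℕ → ℂ) (C : Set A) : Set A :=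
  C ∪ image2 (· + ·) C C ∪ image2 (· * ·) C C ∪ star '' C ∪ image2 (fun k a => c k • a) univ C ∪
    (⋃ a ∈ C, ⋃ j, W₁ a j) ∪ ⋃ s ∈ {s : Finset A | ↑s ⊆ C}, ⋃ j, W₂ s j

/-- A countable set can be closed under a countable family of operations. -/
lemma exists_hull (W₁ : A → ℕ → Set A) (h₁ : ∀ a j, (W₁ a j).Countable)
    (W₂ : Finset A → ℕ → Set A) (h₂ : ∀ s j, (W₂ s j).Countable) {S : Set A} (hS : S.Countable) :
    ∃ D : Set A, D.Countable ∧ S ⊆ D ∧ (0 : A) ∈ D ∧
      grow W₁ W₂ (denseSeq ℂ) D ⊆ D := by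
  classical
  set G := grow W₁ W₂ (denseSeq ℂ)
  have hG : ∀ C : Set A, C.Countable → (G C).Countable := fun C hC => by
    have hfin : {s : Finset A | ↑s ⊆ C}.Countable := by
      refine ((countable_ofPred_finite_subset hC).preimage Finset.coe_injective).mono ?_
      exact fun s hs => ⟨s.finite_toSet, hs⟩
    exact (((((hC.union (hC.image2 hC _)).union (hC.image2 hC _)).union (hC.image _)).union
      (countable_univ.image2 hC _)).union (hC.biUnion fun a _ => countable_iUnion (h₁ a))).union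
        (hfin.biUnion fun s _ => countable_iUnion (h₂ s))
  have hsub : ∀ C : Set A, C ⊆ G C := fun C x hx => by
    simp only [G, grow, mem_union]; tauto
  set C : ℕ → Set A := fun k => G^[k] (insert 0 S) with hC
  have hsucc : ∀ k, C (k + 1) = G (C k) := fun k => by
    simp only [hC, Function.iterate_succ_apply']
  have hcount : ∀ k, (C k).Countable := by
    intro k
    induction k with
    | zero => exact hS.insert 0
    | succ k ih => rw [hsucc]; exact hG _ ih
  have hmono : Monotone C := monotone_nat_of_le_succ fun k => by rw [hsucc]; exact hsub _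
  refine ⟨⋃ k, C k, countable_iUnion hcount, fun x hx => mem_iUnion.2 ⟨0, .inr hx⟩,
    mem_iUnion.2 ⟨0, .inl rfl⟩, ?_⟩
  intro x hx
  suffices ∃ k, x ∈ G (C k) by
    obtain ⟨k, hk⟩ := this
    exact mem_iUnion.2 ⟨k + 1, by rw [hsucc]; exact hk⟩
  simp only [G, grow, mem_union, mem_image2, mem_image, mem_iUnion, mem_univ, true_and,
    mem_ofPred_eq, exists_prop] at hx ⊢
  rcases hx with (((((⟨k, hk⟩ | ⟨a, ⟨i, ha⟩, b, ⟨j, hb⟩, rfl⟩) | ⟨a, ⟨i, ha⟩, b, ⟨j, hb⟩, rfl⟩) |
    ⟨a, ⟨i, ha⟩, rfl⟩) | ⟨q, a, ⟨i, ha⟩, rfl⟩) | ⟨a, ⟨i, ha⟩, hw⟩) | ⟨s, hs, hw⟩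
  · exact ⟨k, by tauto⟩
  · have := hmono (le_max_left i j) ha; have := hmono (le_max_right i j) hb
    exact ⟨max i j, Or.inl <| Or.inl <| Or.inl <| Or.inl <| Or.inl <| Or.inr ⟨a, ‹_›, b, ‹_›, rfl⟩⟩
  · have := hmono (le_max_left i j) ha; have := hmono (le_max_right i j) hb
    exact ⟨max i j, Or.inl <| Or.inl <| Or.inl <| Or.inl <| Or.inr ⟨a, ‹_›, b, ‹_›, rfl⟩⟩
  · exact ⟨i, Or.inl <| Or.inl <| Or.inl <| Or.inr ⟨a, ha, rfl⟩⟩
  · exact ⟨i, Or.inl <| Or.inl <| Or.inr ⟨q, a, ha, rfl⟩⟩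
  · exact ⟨i, Or.inl <| Or.inr ⟨a, ha, hw⟩⟩
  · obtain ⟨k, hk⟩ := (hmono.directed_le).exists_mem_subset_of_finset_subset_biUnion hs
    exact ⟨k, Or.inr ⟨s, hk, hw⟩⟩

/-- Every countable set lies in a separable subalgebra closed under the given witnesses. -/
lemma exists_subalgebra (W₁ : A → ℕ → Set A) (h₁ : ∀ a j, (W₁ a j).Countable)
    (W₂ : Finset A → ℕ → Set A) (h₂ : ∀ s j, (W₂ s j).Countable) {S : Set A} (hS : S.Countable) :
    ∃ (D : Set A) (B : NonUnitalStarSubalgebra ℂ A), S ⊆ D ∧ (B : Set A) = closure D ∧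
      SeparableSpace B ∧ (∀ a ∈ D, ∀ j, W₁ a j ⊆ D) ∧
      ∀ s : Finset A, ↑s ⊆ D → ∀ j, W₂ s j ⊆ D := by
  obtain ⟨D, hD, hSD, h0, hcl⟩ := exists_hull W₁ h₁ W₂ h₂ hS
  have hgrow : ∀ {x}, x ∈ grow W₁ W₂ (denseSeq ℂ) D → x ∈ D := fun hx => hcl hx
  refine ⟨D, ?B, hSD, ?eq, ?sep, ?w1, ?w2⟩
  case B => exact
    { carrier := closure D
      zero_mem' := subset_closure h0
      add_mem' := fun ha hb => map_mem_closure₂ continuous_add ha hb fun a ha b hb =>
        hgrow (.inl <| .inl <| .inl <| .inl <| .inl <| .inr ⟨a, ha, b, hb, rfl⟩)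
      mul_mem' := fun ha hb => map_mem_closure₂ continuous_mul ha hb fun a ha b hb =>
        hgrow (.inl <| .inl <| .inl <| .inl <| .inr ⟨a, ha, b, hb, rfl⟩)
      smul_mem' := fun z a ha => map_mem_closure₂ continuous_smul (denseRange_denseSeq ℂ z) ha
        (by
          rintro _ ⟨k, rfl⟩ a ha
          exact hgrow (.inl <| .inl <| .inr ⟨k, trivial, a, ha, rfl⟩))
      star_mem' := fun ha => map_mem_closure continuous_star ha fun a ha =>
        hgrow (.inl <| .inl <| .inl <| .inr ⟨a, ha, rfl⟩) }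
  case eq => rfl
  case sep => exact hD.isSeparable.closure.separableSpace
  case w1 => exact fun a ha j x hx => hgrow (.inl <| .inr <| mem_biUnion ha (mem_iUnion.2 ⟨j, hx⟩))
  case w2 => exact fun s hs j x hx => hgrow (.inr <| mem_biUnion hs (mem_iUnion.2 ⟨j, hx⟩))

/-- A positive element of the algebra lying in a closed subalgebra is positive there. -/
lemma exists_root_mem (B : NonUnitalStarSubalgebra ℂ A) [IsClosed (B : Set A)] {z : A}
    (hz : star z * z ∈ B) : ∃ r ∈ B, star r * r = star z * z := by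
  let := CStarAlgebra.spectralOrder A
  have := CStarAlgebra.spectralOrderedRing A
  set e := star z * z
  have he : 0 ≤ e := star_mul_self_nonneg z
  refine ⟨cfcₙ Real.sqrt e, cfcₙ_mem (𝕜 := ℝ) (𝕜' := ℂ) _ hz, ?_⟩
  rw [(cfcₙ_predicate Real.sqrt e).star_eq, ← cfcₙ_mul Real.sqrt Real.sqrt e]
  conv_rhs => rw [← cfcₙ_id ℝ e he.isSelfAdjoint]
  exact cfcₙ_congr fun x hx => Real.mul_self_sqrt (quasispectrum_nonneg_of_nonneg e he x hx)

lemma norm_inr_ite_sub {p : Prop} [Decidable p] (u H : A) :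
    ‖(u : Unitization ℂ A) - (if p then (H : Unitization ℂ A) else 0)‖
      = ‖u - if p then H else 0‖ := by
  split_ifs
  · rw [← Unitization.inr_sub, Unitization.norm_inr]
  · simp [Unitization.norm_inr]

/-- Weakly purely infinite with finite nuclear dimension passes to a separable subalgebra
containing any countable set. -/
theorem exists_separable_model {n : ℕ} (hn : 0 < n) (hA : IsNPurelyInfinite A n) {d : ℕ}
    (hd : HasNuclearDimensionLE A d) {S : Set A} (hS : S.Countable) :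
    ∃ (B : NonUnitalStarSubalgebra ℂ A) (_ : IsClosed (B : Set A)), SeparableSpace B ∧
      S ⊆ B ∧ IsNPurelyInfinite B n ∧ HasNuclearDimensionLE B d := by
  classical
  have hc : ∀ j : ℕ, (0 : ℝ) < 1 / (j + 1) ∧ 1 / ((j : ℝ) + 1) ≤ 1 := fun j =>
    ⟨by positivity, by rw [div_le_one (by positivity)]; linarith [j.cast_nonneg (α := ℝ)]⟩
  choose C hC0 hC using fun j => hA.absorbs_bounded hn (2 * n) (hc j).1 (hc j).2
  have hx : ∀ (a : A) (j : ℕ), ∃ x : Fin n → Fin (2 * n) → A, ‖star a * a‖ ≤ 1 →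
      (∀ b p, ‖x b p‖ ≤ C j) ∧ ∀ p q,
        ‖(∑ b, star (x b p) * (star a * a) * x b q) - (if p = q then star a * a else 0)‖
          ≤ 1 / ((j : ℝ) + 1) := fun a j => by
    by_cases ha : ‖star a * a‖ ≤ 1
    · obtain ⟨x, h1, h2⟩ := hC j (star a * a) ⟨a, rfl⟩ ha
      exact ⟨x, fun _ => ⟨h1, fun p q => by rw [← norm_inr_ite_sub]; exact h2 p q⟩⟩
    · exact ⟨fun _ _ => 0, fun h => absurd h ha⟩
  choose x hx using hx
  choose N β ψ φ hφ happ using fun (s : Finset A) (j : ℕ) => hd s _ (hc j).1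
  obtain ⟨D, B, hSD, hB, hsep, hW₁, hW₂⟩ := exists_subalgebra
    (fun a j => range fun p : Fin n × Fin (2 * n) => x a j p.1 p.2)
    (fun a j => countable_range _)
    (fun s j => ⋃ l, range fun p : Fin (N s j l) × Fin (N s j l) =>
      φ s j l (Matrix.single p.1 p.2 1))
    (fun s j => countable_iUnion fun l => countable_range _) hS
  have hBc : IsClosed (B : Set A) := hB ▸ isClosed_closure
  have hDB : D ⊆ B := hB ▸ subset_closure
  have happrox : ∀ z ∈ B, ∀ η : ℝ, 0 < η → ∃ a ∈ D, ‖z - a‖ < η := fun z hz η hη => by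
    have : z ∈ closure D := by rw [← hB]; exact hz
    obtain ⟨a, ha, hd'⟩ := Metric.mem_closure_iff.1 this η hη
    exact ⟨a, ha, by rwa [← dist_eq_norm]⟩
  refine ⟨B, hBc, hsep, hSD.trans hDB, ?_, ?_⟩
  · rintro h ⟨z, rfl⟩ ε hε
    set c : ℝ := ‖(z : A)‖ + 1 with hc'
    have hc0 : 0 < c := by positivity
    obtain ⟨j, hj⟩ := exists_nat_one_div_lt (show 0 < ε / (3 * c ^ 2) by positivity)
    set M := (n : ℝ) * C j ^ 2 + 1
    have hM : 0 < M := by positivity
    set z' : A := ((c⁻¹ : ℝ) : ℂ) • (z : A) with hz'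
    have hz'n : ‖z'‖ = ‖(z : A)‖ / c := by
      rw [hz', norm_smul, Complex.norm_real, Real.norm_of_nonneg (by positivity)]; ring
    have hz'1 : ‖z'‖ < 1 := by rw [hz'n, div_lt_one hc0]; linarith
    obtain ⟨a, haD, ha⟩ := happrox z' (SMulMemClass.smul_mem _ z.2) (min (1 - ‖z'‖) (ε / (3 * c ^ 2 * (2 * M))))
      (lt_min (by linarith) (by positivity))
    have ha1 : ‖a‖ ≤ 1 := by
      linarith [norm_le_norm_add_norm_sub' a z', min_le_left (1 - ‖z'‖) (ε / (3 * c ^ 2 * (2 * M))),
        norm_sub_rev a z']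
    have hH1 : ‖star a * a‖ ≤ 1 := by
      rw [CStarRing.norm_star_mul_self]; exact mul_le_one₀ ha1 (norm_nonneg _) ha1
    obtain ⟨hxC, hxe⟩ := hx a j hH1
    refine ⟨fun b p => ⟨x a j b p, hDB (hW₁ a haD j ⟨(b, p), rfl⟩)⟩, fun p q => ?_⟩
    set H := star z' * z' with hH
    set r := H - star a * a with hr
    have hrn : ‖r‖ ≤ 2 * ‖z' - a‖ := by
      rw [hr, hH, show star z' * z' - star a * a = star z' * (z' - a) + star (z' - a) * a by
        rw [star_sub, mul_sub, sub_mul]; abel]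
      refine (norm_add_le _ _).trans ?_
      nlinarith [norm_mul_le (star z') (z' - a), norm_mul_le (star (z' - a)) a, norm_star z',
        norm_star (z' - a), norm_nonneg (z' - a)]
    have key : ‖(∑ b, star (x a j b p) * H * x a j b q) - (if p = q then H else 0)‖
        ≤ 1 / ((j : ℝ) + 1) + M * (2 * ‖z' - a‖) := by
      have e : (∑ b, star (x a j b p) * H * x a j b q) - (if p = q then H else 0)
          = ((∑ b, star (x a j b p) * (star a * a) * x a j b q)
              - (if p = q then star a * a else 0))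
            + ((∑ b, star (x a j b p) * r * x a j b q) - (if p = q then r else 0)) := by
        simp only [hr, mul_sub, sub_mul, Finset.sum_sub_distrib]
        split_ifs <;> abel
      rw [e]
      refine (norm_add_le _ _).trans (add_le_add (hxe p q) ?_)
      have h1 : ‖∑ b, star (x a j b p) * r * x a j b q‖ ≤ (n : ℝ) * C j ^ 2 * ‖r‖ := by
        refine (norm_sum_le_of_le _ fun b _ => (norm_mul_le _ _).trans
          (mul_le_mul ((norm_mul_le _ _).trans (mul_le_mul_of_nonneg_right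
            ((norm_star _).trans_le (hxC b p)) (norm_nonneg _))) (hxC b q) (norm_nonneg _)
            (mul_nonneg (hC0 j) (norm_nonneg _)))).trans (le_of_eq ?_)
        simp only [Finset.sum_const, Finset.card_univ, Fintype.card_fin, nsmul_eq_mul]; ring
      have h2 : ‖(if p = q then r else 0)‖ ≤ ‖r‖ := by split_ifs <;> simp
      refine (norm_sub_le _ _).trans ?_
      nlinarith [mul_le_mul_of_nonneg_left hrn hM.le, h1, h2]
    have hz : star (z : A) * z = ((c ^ 2 : ℝ) : ℂ) • H := by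
      rw [hH, hz', star_smul, smul_mul_smul_comm, smul_smul, Complex.star_def, Complex.conj_ofReal]
      push_cast
      rw [show ((c : ℂ) ^ 2 * ((c : ℂ)⁻¹ * (c : ℂ)⁻¹)) = 1 by
        have : (c : ℂ) ≠ 0 := by exact_mod_cast hc0.ne'
        field_simp, one_smul]
    have e2 : (((∑ b, star (⟨x a j b p, hDB (hW₁ a haD j ⟨(b, p), rfl⟩)⟩ : B) * (star z * z)
          * (⟨x a j b q, hDB (hW₁ a haD j ⟨(b, q), rfl⟩)⟩ : B))
          - (if p = q then star z * z else 0) : B) : A)
        = ((c ^ 2 : ℝ) : ℂ) • ((∑ b, star (x a j b p) * H * x a j b q) - (if p = q then H else 0)) := by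
      split_ifs <;> push_cast <;> simp [hz, Finset.smul_sum, smul_sub, mul_smul_comm, smul_mul_assoc]
    refine (congrArg norm e2).trans_le ?_
    rw [norm_smul, Complex.norm_real, Real.norm_of_nonneg (by positivity)]
    have h3 := (mul_le_mul_of_nonneg_left key (sq_nonneg c))
    have h4 : c ^ 2 * (1 / ((j : ℝ) + 1)) ≤ ε / 3 := by
      have := mul_le_mul_of_nonneg_left hj.le (sq_nonneg c)
      rw [show c ^ 2 * (ε / (3 * c ^ 2)) = ε / 3 by field_simp] at this
      exact this
    have h5 : c ^ 2 * (M * (2 * ‖z' - a‖)) ≤ ε / 3 := by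
      have := mul_le_mul_of_nonneg_left (le_of_lt (ha.trans_le (min_le_right _ _)))
        (show 0 ≤ c ^ 2 * (M * 2) by positivity)
      rw [show c ^ 2 * (M * 2) * (ε / (3 * c ^ 2 * (2 * M))) = ε / 3 by field_simp] at this
      linarith
    linarith
  · intro s ε hε
    obtain ⟨j, hj⟩ := exists_nat_one_div_lt (half_pos hε)
    have hη : 0 < ε / (2 * ((d : ℝ) + 2)) := by positivity
    choose a haD ha using fun b : B => happrox (b : A) b.2 _ hη
    set s' : Finset A := s.image a
    have hs' : ↑s' ⊆ D := by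
      intro y hy
      obtain ⟨b, -, rfl⟩ := Finset.mem_image.1 hy
      exact haD b
    have hmem : ∀ l T, φ s' j l T ∈ B := fun l T => by
      rw [Matrix.matrix_eq_sum_single T, map_sum]
      refine sum_mem fun p _ => ?_
      rw [map_sum]
      refine sum_mem fun q _ => ?_
      rw [show Matrix.single p q (T p q) = T p q • Matrix.single p q (1 : ℂ) by
        rw [Matrix.smul_single, smul_eq_mul, mul_one], map_smul]
      exact SMulMemClass.smul_mem _ (hDB (hW₂ s' hs' j (mem_iUnion.2 ⟨l, (p, q), rfl⟩)))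
    let ι : B →ₗ[ℂ] A :=
      { toFun := fun b => (b : A)
        map_add' := fun _ _ => rfl
        map_smul' := fun _ _ => rfl }
    let φB : ∀ l, Matrix (Fin (N s' j l)) (Fin (N s' j l)) ℂ →ₗ[ℂ] B := fun l =>
      { toFun := fun T => ⟨φ s' j l T, hmem l T⟩
        map_add' := fun _ _ => Subtype.ext (map_add _ _ _)
        map_smul' := fun _ _ => Subtype.ext (map_smul _ _ _) }
    refine ⟨N s' j, β s' j, fun l => (ψ s' j l).comp ι, φB, fun l => ?_, fun b hb => ?_⟩
    · obtain ⟨h1, h2, h3, h4, h5, h6⟩ := hφ s' j l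
      refine ⟨fun m v => h1 m fun i => (v i : A), fun v => h2 v, fun v => h3 v, ?_, fun T => h5 T,
        fun T T' hT hT' h => Subtype.ext (h6 T T' hT hT' h)⟩
      intro m T v
      obtain ⟨z, hz⟩ := h4 m T fun i => (v i : A)
      have hval : ((∑ i, ∑ i', star (v i) * φB l ((T i).conjTranspose * T i') * v i' : B) : A)
          = star z * z := by
        rw [hz]; push_cast; rfl
      have : IsClosed (B : Set A) := hBc
      obtain ⟨r, hr, hrz⟩ := exists_root_mem B (z := z) (hval ▸ SetLike.coe_mem _)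
      exact ⟨⟨r, hr⟩, Subtype.ext (by rw [hval, ← hrz]; rfl)⟩
    · change ‖((∑ l, φB l ((ψ s' j l) (b : A))) - b : B).1‖ ≤ ε
      push_cast
      change ‖(∑ l, φ s' j l (ψ s' j l (b : A))) - (b : A)‖ ≤ ε
      have h0 := happ s' j (a b) (Finset.mem_image_of_mem a hb)
      set r := (b : A) - a b with hr
      have hb' : (∑ l, φ s' j l (ψ s' j l (b : A))) - (b : A)
          = ((∑ l, φ s' j l (ψ s' j l (a b))) - a b) + ((∑ l, φ s' j l (ψ s' j l r)) - r) := by
        simp only [hr, map_sub, Finset.sum_sub_distrib]; abel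
      rw [hb']
      refine (norm_add_le _ _).trans ((add_le_add h0 ((norm_sub_le _ _).trans
        (add_le_add ((norm_sum_le_of_le _ fun l _ =>
          ((hφ s' j l).2.2.2.2.1 _).trans ((hφ s' j l).2.1 r))) le_rfl))).trans ?_)
      rw [Finset.sum_const, Finset.card_univ, Fintype.card_fin, nsmul_eq_mul]
      push_cast
      have h7 : ((d : ℝ) + 2) * ‖r‖ ≤ ((d : ℝ) + 2) * (ε / (2 * ((d : ℝ) + 2))) :=
        mul_le_mul_of_nonneg_left (ha b).le (by positivity)
      rw [show ((d : ℝ) + 2) * (ε / (2 * ((d : ℝ) + 2))) = ε / 2 by field_simp] at h7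
      linarith

end Vale.Agent.P133
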