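import Vale.Agent.P133.OrderZero

/-!
P133: elements built blockwise from an order zero map, and the estimate making them commute with an
element which the factorisation nearly reproduces.
-/

namespace Vale.Agent.P133

open Matrix Vale.Agent.P095.SN
open scoped Matrix.Norms.L2Operator MatrixOrder ComplexOrder

variable {N : ℕ} {β : Fin N → Fin N} {B : Type*} [CStarAlgebra B]

/-- A chosen index in the block of an index. -/
noncomputable def base (β : Fin N → Fin N) (i : Fin N) : Fin N :=
  @Function.invFun _ _ ⟨i⟩ β (β i)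

theorem map_base (i : Fin N) : β (base β i) = β i :=
  have : Nonempty (Fin N) := ⟨i⟩
  Function.invFun_eq ⟨i, rfl⟩

theorem base_congr {i j : Fin N} (h : β i = β j) : base β i = base β j := by
  have : Nonempty (Fin N) := ⟨i⟩
  show Function.invFun β (β i) = Function.invFun β (β j)
  rw [h]

/-- The matrix unit from an index to the base of its block. -/
noncomputable abbrev toBase (β : Fin N → Fin N) (i : Fin N) : Matrix (Fin N) (Fin N) ℂ :=
  Matrix.single (base β i) i 1

theorem star_toBase (i : Fin N) : star (toBase β i) = Matrix.single i (base β i) 1 := by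
  simp [toBase, Matrix.star_eq_conjTranspose, Matrix.conjTranspose_single]

theorem BlockDiag.toBase (i : Fin N) : BlockDiag β (toBase β i) := .single (map_base i) 1

theorem sum_star_toBase_mul : ∑ i, star (toBase β i) * toBase β i = 1 := by
  simp only [star_toBase, Matrix.single_mul_single_same, mul_one]
  ext a b
  rw [Matrix.sum_apply, Finset.sum_eq_single a (fun j _ hj =>
    Matrix.single_apply_of_ne _ _ _ _ _ fun e => hj e.1) (by simp)]
  simp [Matrix.one_apply, Matrix.single_apply]

/-- Copy `y` along every block and weight by a block diagonal matrix on the right. -/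
noncomputable def theta (β : Fin N → Fin N) (Φ : Matrix (Fin N) (Fin N) ℂ →ₗ[ℂ] B) (y : Fin N → B)
    (T : Matrix (Fin N) (Fin N) ℂ) : B :=
  ∑ i, Φ (star (toBase β i)) * y (base β i) * Φ (toBase β i * T)

variable {Φ : Matrix (Fin N) (Fin N) ℂ →ₗ[ℂ] B}

theorem OrderZero.theta_eq_left (_h : OrderZero β Φ) (y : Fin N → B)
    {T : Matrix (Fin N) (Fin N) ℂ} (hT : BlockDiag β T) :
    theta β Φ y T = ∑ i, Φ (T * star (toBase β i)) * y (base β i) * Φ (toBase β i) := by
  classical
  have e1 : ∀ i, toBase β i * T = ∑ j, T i j • Matrix.single (base β i) j 1 := by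
    intro i
    ext a b
    simp [toBase, Matrix.sum_apply, Matrix.single_apply, Matrix.mul_apply, ite_and]
  have e2 : ∀ i, T * star (toBase β i) = ∑ j, T j i • Matrix.single j (base β i) 1 := by
    intro i
    ext a b
    simp [star_toBase, Matrix.sum_apply, Matrix.single_apply, Matrix.mul_apply, ite_and]
  simp only [theta, e1, e2, map_sum, map_smul, Finset.mul_sum, Finset.sum_mul, mul_smul_comm,
    smul_mul_assoc]
  conv_rhs => rw [Finset.sum_comm]
  refine Finset.sum_congr rfl fun i _ => Finset.sum_congr rfl fun j _ => ?_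
  by_cases hij : β i = β j
  · simp only [toBase, base_congr hij, Matrix.star_eq_conjTranspose, Matrix.conjTranspose_single,
      star_one]
  · simp [hT i j hij]

theorem OrderZero.star_theta (h : OrderZero β Φ) (y : Fin N → B) {T : Matrix (Fin N) (Fin N) ℂ}
    (hT : BlockDiag β T) : star (theta β Φ y T) = theta β Φ (fun i => star (y i)) (star T) := by
  rw [h.theta_eq_left _ hT.star, theta, star_sum]
  refine Finset.sum_congr rfl fun i _ => ?_
  rw [star_mul, star_mul, ← star_map_of_cp h.cp, ← star_map_of_cp h.cp, star_star, star_mul,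
    mul_assoc]

variable [PartialOrder B] [StarOrderedRing B]

omit [PartialOrder B] [StarOrderedRing B] in
theorem OrderZero.row_le (h : OrderZero β Φ) :
    ‖∑ i, Φ (star (toBase β i)) * star (Φ (star (toBase β i)))‖ ≤ 1 := by
  rw [Finset.sum_congr rfl fun i _ => by
    rw [← star_map_of_cp h.cp, star_star, h.map_mul_map (BlockDiag.toBase i).star (.toBase i)],
    ← Finset.mul_sum, ← map_sum, sum_star_toBase_mul]
  exact (norm_mul_le _ _).trans (mul_le_one₀ h.norm_one_le (norm_nonneg _) h.norm_one_le)

omit [PartialOrder B] [StarOrderedRing B] in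
theorem OrderZero.col_sum (h : OrderZero β Φ) {T T' : Matrix (Fin N) (Fin N) ℂ}
    (hT : BlockDiag β T) (hT' : BlockDiag β T') :
    ∑ i, star (Φ (toBase β i * T)) * Φ (toBase β i * T') = Φ 1 * Φ (star T * T') := by
  rw [Finset.sum_congr rfl fun i _ => by
    rw [← star_map_of_cp h.cp, h.map_mul_map ((BlockDiag.toBase i).mul hT).star
      ((BlockDiag.toBase i).mul hT'), star_mul, mul_assoc, ← mul_assoc (star (toBase β i))],
    ← Finset.mul_sum, ← map_sum, ← Finset.mul_sum, ← Finset.sum_mul, sum_star_toBase_mul, one_mul]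

theorem OrderZero.norm_theta_le (h : OrderZero β Φ) {y : Fin N → B} {C : ℝ} (hC : 0 ≤ C)
    (hy : ∀ i, ‖y i‖ ≤ C) {T : Matrix (Fin N) (Fin N) ℂ} (hT : BlockDiag β T) (hT1 : ‖T‖ ≤ 1) :
    ‖theta β Φ y T‖ ≤ C := by
  have h1 := norm_sum_mul_mul_le (fun i => Φ (star (toBase β i))) (fun i => y (base β i))
    (fun i => Φ (toBase β i * T)) (u := 1) (z := C) (v := 1) (by simpa using h.row_le)
    (fun i => hy _) ?_ zero_le_one hC zero_le_one
  · simpa [theta] using h1
  · rw [h.col_sum hT hT, mul_one]
    refine (norm_mul_le _ _).trans (mul_le_one₀ h.norm_one_le (norm_nonneg _) ((h.norm_le _).trans ?_))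
    rw [CStarRing.norm_star_mul_self]
    exact mul_le_one₀ hT1 (norm_nonneg _) hT1

/-- The Schwarz defect of a factorisation at one element. -/
noncomputable def defect (Φ : Matrix (Fin N) (Fin N) ℂ →ₗ[ℂ] B)
    (P X Y : Matrix (Fin N) (Fin N) ℂ) (a : B) : B :=
  star a * Φ P * a - star a * Φ X - Φ (star X) * a + Φ Y

/-- The Gram matrix of a map into matrices at two elements. -/
def pairGram (P X Y : Matrix (Fin N) (Fin N) ℂ) :
    Matrix (Fin 2 × Fin N) (Fin 2 × Fin N) ℂ :=
  Matrix.of fun x y => ![![P, X], ![star X, Y]] x.1 y.1 x.2 y.2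

theorem block_pairGram (P X Y : Matrix (Fin N) (Fin N) ℂ) (p q : Fin 2) :
    P095.SC.block (pairGram P X Y) p q = ![![P, X], ![star X, Y]] p q := rfl

theorem OrderZero.form_nonneg (h : OrderZero β Φ) {M : Matrix (Fin 2 × Fin N) (Fin 2 × Fin N) ℂ}
    (hM : M.PosSemidef) (V : Fin 2 → B) :
    0 ≤ ∑ p, ∑ q, star (V p) * Φ (P095.SC.block M p q) * V q := by
  obtain ⟨z, hz⟩ := P095.SC.form_map_pos h.cp 1 hM V
  simp only [P095.SC.form, Matrix.conjTranspose_one, Matrix.one_mul, Matrix.mul_one] at hz
  exact hz ▸ star_mul_self_nonneg z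

theorem OrderZero.defect_pieces (h : OrderZero β Φ) {P X Y : Matrix (Fin N) (Fin N) ℂ}
    (hM : (pairGram P X Y).PosSemidef) (hP : BlockDiag β P) (hX : BlockDiag β X)
    (hP1 : ‖P‖ ≤ 1) (a : B) :
    0 ≤ defect Φ P X Y a ∧
      star (Φ P * a - Φ X) * (Φ P * a - Φ X) ≤ defect Φ P X Y a ∧
      ∑ i, star (Φ (toBase β i * P) * a - Φ (toBase β i * X))
        * (Φ (toBase β i * P) * a - Φ (toBase β i * X)) ≤ defect Φ P X Y a := by
  classical
  let V : Fin 2 → B := ![-a, 1]
  have hPs : star P = P := by
    ext i j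
    have := congrFun₂ hM.isHermitian (0, i) (0, j)
    simpa [pairGram, Matrix.conjTranspose_apply] using this
  have hdef : defect Φ P X Y a = ∑ p, ∑ q, star (V p) * Φ (P095.SC.block (pairGram P X Y) p q) * V q := by
    simp [defect, V, block_pairGram, Fin.sum_univ_two]
    abel
  let Z : Matrix (Fin 2 × Fin N) (Fin N) ℂ :=
    Matrix.of fun x j => if x.1 = 0 ∧ x.2 = j then 1 else 0
  have hsq : (pairGram (star P * P) (star P * X) (star X * X)).PosSemidef
      ∧ (pairGram P X Y - pairGram (star P * P) (star P * X) (star X * X)).PosSemidef := by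
    set M := pairGram P X Y with hMdef
    have e : pairGram (star P * P) (star P * X) (star X * X) = M * (Z * Z.conjTranspose) * M := by
      ext ⟨p, i⟩ ⟨q, j⟩
      fin_cases p <;> fin_cases q <;>
        simp [hMdef, pairGram, Z, Matrix.mul_apply, Fintype.sum_prod_type,
          hPs, ite_and, Matrix.conjTranspose_apply, apply_ite (starRingEnd ℂ)]
    obtain ⟨R, hR⟩ := CStarAlgebra.nonneg_iff_eq_star_mul_self.1 (nonneg_iff_posSemidef.2 hM)
    let E := Z * Z.conjTranspose
    have hEE : E * E = E := by
      ext ⟨p, i⟩ ⟨q, j⟩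
      simp [E, Z, Matrix.mul_apply, Fintype.sum_prod_type, ite_and,
        Matrix.conjTranspose_apply, apply_ite (starRingEnd ℂ)]
    have hEs : star E = E := by
      simp [E, Matrix.star_eq_conjTranspose, Matrix.conjTranspose_mul]
    have hn : ‖R * E‖ * ‖R * E‖ ≤ 1 := by
      rw [← CStarRing.norm_star_mul_self]
      have e2 : star (R * E) * (R * E) = Z * P * Z.conjTranspose := by
        rw [star_mul, hEs, show E * star R * (R * E) = E * M * E by
          rw [hR]; simp only [mul_assoc]]
        ext ⟨p, i⟩ ⟨q, j⟩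
        simp [E, hMdef, pairGram, Z, Matrix.mul_apply, Fintype.sum_prod_type,
          ite_and, Matrix.conjTranspose_apply, apply_ite (starRingEnd ℂ)]
      have hPpos : 0 ≤ P := by
        rw [nonneg_iff_posSemidef]
        have h1 := hM.submatrix fun i => ((0 : Fin 2), i)
        exact h1
      have hle : star (R * E) * (R * E) ≤ E := by
        rw [e2, Matrix.le_iff]
        have h2 : (1 - P).PosSemidef :=
          Matrix.le_iff.1 ((CStarAlgebra.norm_le_one_iff_of_nonneg P hPpos).1 hP1)
        have h3 := h2.mul_mul_conjTranspose_same Z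
        simpa [E, Matrix.mul_sub, Matrix.sub_mul] using h3
      refine (CStarAlgebra.norm_le_norm_of_nonneg_of_le (star_mul_self_nonneg _) hle).trans ?_
      have h4 := CStarRing.norm_star_mul_self (x := E)
      rw [hEs, hEE] at h4
      nlinarith [norm_nonneg E]
    constructor
    · rw [e]
      have h5 := (Matrix.posSemidef_self_mul_conjTranspose (M * Z))
      simpa [Matrix.conjTranspose_mul, hM.isHermitian.eq, Matrix.mul_assoc] using h5
    · rw [e, ← nonneg_iff_posSemidef, sub_nonneg]
      have h6 : (R * E) * star (R * E) ≤ 1 := by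
        refine (CStarAlgebra.norm_le_one_iff_of_nonneg _ (mul_star_self_nonneg _)).1 ?_
        rw [CStarRing.norm_self_mul_star]
        exact hn
      have h7 := star_left_conjugate_le_conjugate h6 R
      rw [mul_one, ← hR, star_mul, hEs] at h7
      calc M * E * M = star R * (R * E * (E * star R)) * R := by
            rw [hR, ← mul_assoc (R * E) E, mul_assoc R E E, hEE]
            simp only [mul_assoc]
        _ ≤ M := h7
  have hs1 : defect Φ (star P * P) (star P * X) (star X * X) a ≤ defect Φ P X Y a := by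
    rw [← sub_nonneg, hdef]
    have h8 := h.form_nonneg hsq.2 V
    refine h8.trans (le_of_eq ?_)
    simp only [show ∀ p q, P095.SC.block (pairGram P X Y
        - pairGram (star P * P) (star P * X) (star X * X)) p q
      = P095.SC.block (pairGram P X Y) p q
        - P095.SC.block (pairGram (star P * P) (star P * X) (star X * X)) p q from fun p q => rfl,
      map_sub, mul_sub, sub_mul, Finset.sum_sub_distrib]
    congr 1
    simp [defect, V, block_pairGram, Fin.sum_univ_two]
    abel
  have hcomm : ∀ S T : Matrix (Fin N) (Fin N) ℂ, BlockDiag β S → BlockDiag β T →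
      Commute (Φ 1) (Φ (star S * T)) := fun S T hS hT => h.commute_one (hS.star.mul hT)
  obtain ⟨r, hrs, hr, hrc⟩ : ∃ r : B, star r = r ∧ r * r = 1 - Φ 1 ∧
      ∀ S T, BlockDiag β S → BlockDiag β T → Commute r (Φ (star S * T)) := by
    refine ⟨cfc Real.sqrt (1 - Φ 1), IsSelfAdjoint.cfc.star_eq, ?_, fun S T hS hT => ?_⟩
    · rw [← cfc_mul Real.sqrt Real.sqrt (1 - Φ 1)]
      conv_rhs => rw [← cfc_id' ℝ (1 - Φ 1) (IsSelfAdjoint.of_nonneg h.one_sub_nonneg)]
      exact cfc_congr fun s hs => Real.mul_self_sqrt (spectrum_nonneg_of_nonneg h.one_sub_nonneg hs)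
    · exact Commute.cfc_real ((Commute.one_left _).sub_left (hcomm S T hS hT)) _
  have hblock : ∀ p q : Fin 2, ∃ S T, BlockDiag β S ∧ BlockDiag β T ∧
      P095.SC.block (pairGram (star P * P) (star P * X) (star X * X)) p q = star S * T := by
    intro p q
    rw [block_pairGram]
    fin_cases p <;> fin_cases q
    · exact ⟨P, P, hP, hP, rfl⟩
    · exact ⟨P, X, hP, hX, rfl⟩
    · exact ⟨X, P, hX, hP, by simp⟩
    · exact ⟨X, X, hX, hX, rfl⟩
  set D' := defect Φ (star P * P) (star P * X) (star X * X) a with hD'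
  set D'' := star a * (Φ 1 * Φ (star P * P)) * a - star a * (Φ 1 * Φ (star P * X))
    - Φ 1 * Φ (star X * P) * a + Φ 1 * Φ (star X * X) with hD''
  have hle : D'' ≤ D' := by
    rw [← sub_nonneg]
    refine (h.form_nonneg hsq.1 fun p => r * V p).trans (le_of_eq ?_)
    have e : ∀ p q, star (r * V p)
        * Φ (P095.SC.block (pairGram (star P * P) (star P * X) (star X * X)) p q) * (r * V q)
        = star (V p) * ((1 - Φ 1)
          * Φ (P095.SC.block (pairGram (star P * P) (star P * X) (star X * X)) p q)) * V q := by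
      intro p q
      obtain ⟨S, T, hS, hT, e⟩ := hblock p q
      rw [e, ← hr, star_mul, hrs]
      simp only [mul_assoc]
      rw [← mul_assoc (Φ _) r (V q), ← (hrc S T hS hT).eq]
      simp only [mul_assoc]
    simp only [e]
    simp [hD', hD'', defect, V, block_pairGram, Fin.sum_univ_two, sub_mul, mul_sub, one_mul,
      mul_assoc]
    abel
  refine ⟨?_, ?_, ?_⟩
  · rw [hdef]; exact h.form_nonneg hM V
  · refine le_trans (le_of_eq ?_) (hle.trans hs1)
    rw [hD'', ← h.map_mul_map hP.star hP, ← h.map_mul_map hP.star hX, ← h.map_mul_map hX.star hP,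
      ← h.map_mul_map hX.star hX, star_sub, star_mul, ← star_map_of_cp h.cp, ← star_map_of_cp h.cp]
    simp only [sub_mul, mul_sub, mul_assoc]
    abel
  · refine le_trans (le_of_eq ?_) (hle.trans hs1)
    rw [hD'', ← h.col_sum hP hP, ← h.col_sum hP hX, ← h.col_sum hX hP, ← h.col_sum hX hX]
    simp only [star_sub, star_mul, Finset.mul_sum, Finset.sum_mul, sub_mul, mul_sub, mul_assoc,
      Finset.sum_sub_distrib]
    abel

/-- Blockwise copies almost commute with an element of small defect. -/
theorem OrderZero.norm_theta_comm_le (h : OrderZero β Φ) {P X Y X' Y' : Matrix (Fin N) (Fin N) ℂ}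
    (hM : (pairGram P X Y).PosSemidef) (hM' : (pairGram P X' Y').PosSemidef)
    (hP : BlockDiag β P) (hX : BlockDiag β X) (hX' : BlockDiag β X') (hP1 : ‖P‖ ≤ 1) {a : B}
    {δ C : ℝ} (hδ : 0 ≤ δ) (hC : 0 ≤ C) (hd : ‖defect Φ P X Y a‖ ≤ δ * δ)
    (hd' : ‖defect Φ P X' Y' (star a)‖ ≤ δ * δ) {y : Fin N → B} (hy : ∀ i, ‖y i‖ ≤ C) :
    ‖theta β Φ y P * a - a * theta β Φ y P‖ ≤ C * (2 * δ + ‖X' - star X‖) := by
  have hPs : star P = P := by
    ext i j
    have := congrFun₂ hM.isHermitian (0, i) (0, j)
    simpa [pairGram, Matrix.conjTranspose_apply] using this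
  have key : ∀ (X Y : Matrix (Fin N) (Fin N) ℂ) (a : B) (y : Fin N → B),
      (pairGram P X Y).PosSemidef → BlockDiag β X → ‖defect Φ P X Y a‖ ≤ δ * δ →
      (∀ i, ‖y i‖ ≤ C) → ‖theta β Φ y P * a - theta β Φ y X‖ ≤ C * δ := by
    intro X Y a y hM hX hd hy
    have h1 := norm_sum_mul_mul_le (fun i => Φ (star (toBase β i))) (fun i => y (base β i))
      (fun i => Φ (toBase β i * P) * a - Φ (toBase β i * X)) (u := 1) (z := C) (v := δ)
      (by simpa using h.row_le) (fun i => hy _)
      ((CStarAlgebra.norm_le_norm_of_nonneg_of_le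
        (Finset.sum_nonneg fun i _ => star_mul_self_nonneg _)
        (h.defect_pieces hM hP hX hP1 a).2.2).trans hd) zero_le_one hC hδ
    rw [one_mul] at h1
    refine le_of_eq_of_le ?_ h1
    simp [theta, Finset.sum_mul, mul_sub, mul_assoc]
  have h1 := key X Y a y hM hX hd hy
  have h2 := key X' Y' (star a) (fun i => star (y i)) hM' hX' hd' fun i => by
    rw [norm_star]; exact hy i
  rw [← norm_star, star_sub, star_mul, star_star, h.star_theta _ hP, h.star_theta _ hX', hPs] at h2
  simp only [star_star] at h2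
  have h3 : ‖theta β Φ y (star X') - theta β Φ y X‖ ≤ C * ‖X' - star X‖ := by
    have hlin : theta β Φ y (star X') - theta β Φ y X
        = theta β Φ y (star X' - X) := by
      simp [theta, mul_sub, map_sub, Finset.sum_sub_distrib]
    rw [hlin]
    have e : ‖X' - star X‖ = ‖star X' - X‖ := by rw [← norm_star (star X' - X), star_sub, star_star]
    rw [e]
    have h4 := norm_sum_mul_mul_le (fun i => Φ (star (toBase β i))) (fun i => y (base β i))
      (fun i => Φ (toBase β i * (star X' - X))) (u := 1) (z := C) (v := ‖star X' - X‖)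
      (by simpa using h.row_le) (fun i => hy _) ?_ zero_le_one hC (norm_nonneg _)
    · simpa [theta] using h4
    · rw [h.col_sum (hX'.star.sub hX) (hX'.star.sub hX)]
      refine (norm_mul_le _ _).trans ((mul_le_of_le_one_left (norm_nonneg _) h.norm_one_le).trans
        ((h.norm_le _).trans (le_of_eq ?_)))
      rw [CStarRing.norm_star_mul_self]
  calc ‖theta β Φ y P * a - a * theta β Φ y P‖
      = ‖(theta β Φ y P * a - theta β Φ y X) - (a * theta β Φ y P - theta β Φ y (star X'))
          - (theta β Φ y (star X') - theta β Φ y X)‖ := by congr 1; abel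
    _ ≤ C * δ + C * δ + C * ‖X' - star X‖ :=
        (norm_sub_le _ _).trans (add_le_add ((norm_sub_le _ _).trans (add_le_add h1 h2)) h3)
    _ = _ := by ring

omit [PartialOrder B] [StarOrderedRing B] in
theorem OrderZero.theta_mul_theta (h : OrderZero β Φ) (y y' : Fin N → B)
    (T T' : Matrix (Fin N) (Fin N) ℂ) :
    star (theta β Φ y T) * theta β Φ y' T' = ∑ i, star (Φ (toBase β i * T))
      * (star (y (base β i)) * (star (Φ (Matrix.single (base β i) (base β i) 1))
        * Φ (Matrix.single (base β i) (base β i) 1)) * y' (base β i)) * Φ (toBase β i * T') := by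
  classical
  simp only [theta, star_sum, Finset.sum_mul, Finset.mul_sum]
  refine Finset.sum_congr rfl fun i _ => ?_
  have e : ∀ i j, star (Φ (star (toBase β i)) * y (base β i) * Φ (toBase β i * T))
      * (Φ (star (toBase β j)) * y' (base β j) * Φ (toBase β j * T'))
      = star (Φ (toBase β i * T)) * (star (y (base β i))
        * (Φ 1 * Φ (toBase β i * star (toBase β j))) * y' (base β j)) * Φ (toBase β j * T') := by
    intro i j
    rw [← h.map_mul_map (.toBase i) (BlockDiag.toBase j).star]
    simp only [star_mul, ← star_map_of_cp h.cp, star_star, mul_assoc]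
  rw [Finset.sum_eq_single i (fun j _ hj => by
    rw [e, star_toBase, toBase, Matrix.single_mul_single_of_ne 1 _ _ _ hj 1]
    simp) (by simp), e]
  congr 4
  rw [← star_map_of_cp h.cp, h.map_mul_map (BlockDiag.single rfl 1).star (.single rfl 1),
    star_toBase, toBase, Matrix.star_eq_conjTranspose, Matrix.conjTranspose_single,
    star_one, Matrix.single_mul_single_same, Matrix.single_mul_single_same]

end Vale.Agent.P133
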